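import Vale.Agent.P216L.Sup
import Vale.Agent.P216R.Flow
import Vale.Agent.P216CP.Stm
import Mathlib.Analysis.SpecialFunctions.Trigonometric.DerivHyp

/-!
# P216L: Hessian and Laplace comparison in the support sense
-/

open scoped Manifold ContDiff Topology
open Set MeasureTheory Module Filter

set_option maxSynthPendingDepth 3
set_option linter.unusedSectionVars false

noncomputable section

namespace Vale.Agent.P216L

open Vale.Agent.P219.RG Vale.Agent.P216R Vale.Agent.P216BF Vale.Agent.P216CP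

theorem sn_zero (k : ℝ) : sn k 0 = 0 := by simp [sn]

theorem hasDerivAt_sn (k t : ℝ) : HasDerivAt (sn k) (Real.cosh (k * t)) t := by
  unfold sn
  split_ifs with h
  · simpa [h] using hasDerivAt_id' t
  · exact (((hasDerivAt_id' t).const_mul k).sinh.div_const k).congr_deriv (by field_simp)

theorem hasDerivAt_cosh_mul (k t : ℝ) :
    HasDerivAt (fun s => Real.cosh (k * s)) (k ^ 2 * sn k t) t := by
  refine ((hasDerivAt_id' t).const_mul k).cosh.congr_deriv ?_
  unfold sn
  split_ifs with h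
  · simp [h]
  · field_simp

theorem contDiff_sn (k : ℝ) : ContDiff ℝ ∞ (sn k) := by
  unfold sn
  split_ifs
  · exact contDiff_id
  · fun_prop

theorem sn_pos {k t : ℝ} (hk : 0 ≤ k) (ht : 0 < t) : 0 < sn k t := by
  unfold sn
  split_ifs with h
  · exact ht
  · have := lt_of_le_of_ne hk (Ne.symm h)
    exact div_pos (Real.sinh_pos_iff.2 (mul_pos this ht)) this

theorem deriv_prof (k L s : ℝ) :
    deriv (fun s => sn k s / sn k L) s = Real.cosh (k * s) / sn k L :=
  ((hasDerivAt_sn k s).div_const _).deriv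

theorem integral_prof {k L : ℝ} (hk : 0 ≤ k) (hL : 0 < L) :
    ∫ s in (0 : ℝ)..L, (deriv (fun s => sn k s / sn k L) s ^ 2 - -k ^ 2 * (sn k s / sn k L) ^ 2)
      = ct k L := by
  have h0 := (sn_pos hk hL).ne'
  have hc := (contDiff_sn k).continuous
  rw [intervalIntegral.integral_eq_sub_of_hasDerivAt
    (f := fun s => sn k s * Real.cosh (k * s) / sn k L ^ 2) (fun s _ => ?_)
    (Continuous.intervalIntegrable (by simp only [deriv_prof]; fun_prop) _ _)]
  · simp only [sn_zero, ct]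
    field_simp
    simp
  · refine (((hasDerivAt_sn k s).mul (hasDerivAt_cosh_mul k s)).div_const _).congr_deriv ?_
    rw [deriv_prof]
    field_simp
    ring

variable {E : Type} [NormedAddCommGroup E] [NormedSpace ℝ E] [FiniteDimensional ℝ E]
  {M : Type} [TopologicalSpace M] [ChartedSpace E M] [IsManifold 𝓘(ℝ, E) ∞ M]

/-- the Ricci curvature along a minimising geodesic is continuous -/
theorem continuousOn_ric {g : Ten E M} {U : Set M} (hg : Met g U) {γ : ℝ → M} {L : ℝ}
    (hγ : MinGeo g U γ L) :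
    ContinuousOn (fun s => Ric g (γ s) (P216R.vel E γ s) (P216R.vel E γ s)) (Icc 0 L) := by
  rcases hγ.nonneg.eq_or_lt with rfl | hL
  · simp
  obtain ⟨ε, hε, h2, h3⟩ := hγ.geo
  have hsub : Icc 0 L ⊆ Ioo (-ε) (L + ε) := fun s hs => ⟨by linarith [hs.1], by linarith [hs.2]⟩
  obtain ⟨e, Ψ, W, hΨ, hW, h, hax⟩ := exists_seg hg hL isOpen_Ioo hsub h2 h3 hγ.unit
  refine ContinuousOn.congr (f := fun s => ricG (comap Ψ g) (s • e) e e) (fun s hs => ?_)
    fun s hs => ?_
  · have h1 := ((ps_const (F := ℝ) (h.met.smooth.contDiffAt (h.met.isOpen.mem_nhds (h.mem s hs)))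
      univ 0).ricG (mem_univ _) (h.pd hs).pos).contDiffAt (mem_univ _)
    exact (((h1.continuousAt.comp (f := fun s : ℝ => s • e) (by fun_prop)).clm_apply
      continuousAt_const).clm_apply continuousAt_const).continuousWithinAt
  · simp only [← Ric_model, (li_comap hg hΨ (h.mem s hs) (hW (h.mem s hs))).Ric, comap_apply,
      (hax s hs).1, (hax s hs).2]

theorem integrable_ric {g : Ten E M} {U : Set M} (hg : Met g U) {γ : ℝ → M} {L : ℝ}
    (hγ : MinGeo g U γ L) : IntervalIntegrable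
      (fun s => Ric g (γ s) (P216R.vel E γ s) (P216R.vel E γ s)) volume 0 L :=
  (continuousOn_ric hg hγ).intervalIntegrable_of_Icc hγ.nonneg

/-- SUPPORT FUNCTIONS for one metric, with the profile `α` -/
theorem support0 {g : Ten E M} {U : Set M} (hg : Met g U) {γ : ℝ → M} {L : ℝ}
    (hγ : MinGeo g U γ L) (hL : 0 < L) {α : ℝ → ℝ} (hα : ContDiff ℝ ∞ α) (h0 : α 0 = 0)
    (h1 : α L = 1) : ∃ f, Sup g U (γ 0) (γ L) f ∧ f (γ L) = L ∧
      grad g f (γ L) = P216R.vel E γ L ∧
      lap g f (γ L) = ∫ s in (0 : ℝ)..L, (((finrank ℝ E : ℝ) - 1) * deriv α s ^ 2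
        - α s ^ 2 * Ric g (γ s) (P216R.vel E γ s) (P216R.vel E γ s)) ∧
      ∀ κ : ℝ → ℝ, ContinuousOn κ (Icc 0 L) → (∀ s ∈ Icc 0 L, SecGe g (γ s) (κ s)) → ∀ v,
        hess g f (γ L) v v ≤ (g (γ L) v v - g (γ L) v (P216R.vel E γ L) ^ 2) *
          ∫ s in (0 : ℝ)..L, (deriv α s ^ 2 - κ s * α s ^ 2) := by
  obtain ⟨ε, hε, h2, h3⟩ := hγ.geo
  have hsub : Icc 0 L ⊆ Ioo (-ε) (L + ε) := fun s hs => ⟨by linarith [hs.1], by linarith [hs.2]⟩
  obtain ⟨f, f1, f2, f3, f4, f5, f6, f7, -⟩ := support' (hg.fam univ) convex_univ uniqueDiffOn_univ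
    (mem_univ 0) hL isOpen_Ioo hsub h2 h3 hγ.unit hα h0 h1
  exact ⟨f 0, ⟨contMDiffAt_iff_rd.2 (f1.contDiffAt (mem_univ _)), f3 _ _,
    by rw [f2, MinGeo.ed_eq hγ], f4.mono fun y hy => hy 0 (mem_univ _)⟩, f2, f5, f6, f7⟩

variable (E)

theorem suph : SUPH E := by
  intro M _ _ _ g U γ L k hg _ hγ hL hk hs
  obtain ⟨f, f1, -, f3, -, f5⟩ := support0 hg hγ hL ((contDiff_sn k).div_const (sn k L))
    (by simp [sn_zero]) (div_self (sn_pos hk hL).ne')
  refine ⟨f, f1, f3, fun v => ?_⟩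
  rw [mul_comm, ← integral_prof hk hL]
  exact f5 _ continuousOn_const hs v

theorem supl : SUPL E := by
  intro M _ _ _ g U γ L k hg _ hγ hL hk hs
  have hα := (contDiff_sn k).div_const (sn k L)
  obtain ⟨f, f1, -, f3, f4, -⟩ := support0 hg hγ hL hα
    (by simp [sn_zero]) (div_self (sn_pos hk hL).ne')
  refine ⟨f, f1, f3, ?_⟩
  have c1 := hα.continuous
  have c2 := hα.continuous_deriv (by simp)
  rw [f4, ← integral_prof hk hL, ← intervalIntegral.integral_const_mul]
  refine intervalIntegral.integral_mono_on hL.le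
    ((Continuous.intervalIntegrable (by fun_prop) _ _).sub
      ((integrable_ric hg hγ).continuousOn_mul (c1.pow 2).continuousOn))
    (Continuous.intervalIntegrable (by fun_prop) _ _) fun s hs' => ?_
  nlinarith [mul_le_mul_of_nonneg_left (hs s hs') (sq_nonneg (sn k s / sn k L))]

end Vale.Agent.P216L
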