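import Vale.Agent.P216L.Cmp
import Vale.Agent.P216CP.HR
import Vale.Agent.P216BF.Scal
import Vale.Agent.P216MP.Vs

/-!
# P216L: the energy barrier (upper barriers for the square of the distance under Ricci flow)
-/

open scoped Manifold ContDiff Topology
open Set MeasureTheory Module Filter

set_option maxSynthPendingDepth 3
set_option linter.unusedSectionVars false

noncomputable section

namespace Vale.Agent.P216L

open Vale.Agent.P219.RG Vale.Agent.P216R Vale.Agent.P216BF Vale.Agent.P216CP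
open Vale.Agent.P210.R2.H53 (hessG lapG)

variable {E : Type} [NormedAddCommGroup E] [NormedSpace ℝ E] [FiniteDimensional ℝ E]

section Chart

variable {G : E → Bil E} {W : Set E} {p : E}

/-- the radial variation of a constant curve -/
def rA (E : Type) [NormedAddCommGroup E] [NormedSpace ℝ E] (u : ℝ) : E →L[ℝ] E :=
  u • ContinuousLinearMap.id ℝ E

theorem var_rA (p : E) : Var univ (fun _ => p) (rA E) :=
  ⟨isOpen_univ, subset_univ _, contDiffOn_const, contDiffOn_id.smul contDiffOn_const⟩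

theorem en_rA (G : E → Bil E) (p : E) : en G (fun _ => p) (rA E) 0 = 0 := by simp [en, dens]

theorem Var.en_nonneg {Q : Type} [NormedAddCommGroup Q] [NormedSpace ℝ Q] {c : ℝ → E}
    {A : ℝ → Q →L[ℝ] E} (h : IsMetricOn G W) {w : Q}
    (hw : ∀ u ∈ Icc (0 : ℝ) 1, c u + A u w ∈ W) : 0 ≤ en G c A w :=
  intervalIntegral.integral_nonneg zero_le_one fun u hu => h.nonneg (hw u hu) _

theorem energy_chart (h : IsMetricOn G W) (hp : p ∈ W) :
    fderiv ℝ (fun z => en G (fun _ => p) (rA E) (z - p)) p = 0 ∧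
      ∀ w, hessG G (fun z => en G (fun _ => p) (rA E) (z - p)) p w w = 2 * G p w w := by
  have v := var_rA p
  have hg : ∀ u ∈ Icc (0 : ℝ) 1, covD G (fun _ => p) (deriv fun _ => p) u = 0 := fun u _ => by
    simp [covD, ← chrisB_apply]
  have e1 : fderiv ℝ (fun z => en G (fun _ => p) (rA E) (z - p))
      = fun z => fderiv ℝ (en G (fun _ => p) (rA E)) (z - p) := funext fun z => fderiv_comp_sub p
  have e2 : fderiv ℝ (fun z => en G (fun _ => p) (rA E) (z - p)) p = 0 := by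
    ext w
    simp [e1, v.fderiv_en h (fun _ _ => hp) hg]
  refine ⟨e2, fun w => ?_⟩
  have e3 : ∀ u, idn G (fun _ => p) (fun u => rA E u w) u = G p w w := fun u => by
    have : deriv (fun u => rA E u w) u = w := by simpa [rA] using (hasDerivAt_ray w u).deriv
    simp [idn, covD, this, ← chrisB_apply, h.curv_eq hp]
  rw [P216L.hessG_apply, e2, e1, fderiv_comp_sub, sub_self, v.fderiv2_en h (fun _ _ => hp) hg]
  simp [idx, e3]

end Chart

variable {M : Type} [TopologicalSpace M] [ChartedSpace E M] [IsManifold 𝓘(ℝ, E) ∞ M]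
  {g : ℝ → Ten E M} {I : Set ℝ} {U : Set M} {x₀ x : M} {t d : ℝ} {f : ℝ → M → ℝ}

/-- `f` is an upper barrier at `(t, x)` of the square of the distance from `x₀`; its time
derivative there is `d` -/
structure EB (g : ℝ → Ten E M) (I : Set ℝ) (U : Set M) (x₀ x : M) (t d : ℝ) (f : ℝ → M → ℝ) :
    Prop where
  ps : PS (fun s => rd E (f s) x) I t (pt E x)
  eq : f t x = dd (g t) U x₀ x ^ 2
  fin : ∀ᶠ y in 𝓝 x, ∀ s ∈ I, ed (g s) U x₀ y ≠ ⊤
  le : ∀ᶠ y in 𝓝 x, ∀ s ∈ I, dd (g s) U x₀ y ^ 2 ≤ f s y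
  dt : HasDerivWithinAt (fun s => f s x) d I t
  gam : gam (g t) (f t) (f t) x = 4 * dd (g t) U x₀ x ^ 2

/-- the barrier at the centre -/
theorem energy_self (hg : Fam g I U) (hI : Convex ℝ I) (hI' : UniqueDiffOn ℝ I) (ht : t ∈ I)
    (hx : x ∈ U) : ∃ f, EB g I U x x t 0 f ∧ (∀ v, hess (g t) (f t) x v v = 2 * g t x v v) ∧
      lap (g t) (f t) x = 2 * finrank ℝ E := by
  have hp := pt_mem_dom (E := E) hx
  have hW := isOpen_dom (E := E) x hg.isOpen
  have v := var_rA (pt E x)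
  set F : ℝ → E → ℝ := fun s z => en (co (g s) x) (fun _ => pt E x) (rA E) (z - pt E x) with hF
  have he : ∀ᶠ z in 𝓝 (pt E x), ∀ s, rd E (F s ∘ chartAt E x) x z = F s z := by
    filter_upwards [(chartAt E x).open_target.mem_nhds (pt_mem x)] with z hz s
    simp only [rd, Function.comp, (chartAt E x).right_inv hz]
  obtain ⟨c1, c2⟩ := energy_chart ((hg.met ht).isMetricOn x) hp
  have hh : ∀ w, hess (g t) (F t ∘ chartAt E x) x w w = 2 * g t x w w := fun w => by
    rw [hess, hessG_congr EventuallyEq.rfl (he.mono fun z hz => hz t), c2, co_pt]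
  have h0 : ∀ s, (F s ∘ chartAt E x) x = 0 := fun s => by
    change en _ _ _ (pt E x - pt E x) = 0
    rw [sub_self, en_rA]
  have hev : ∀ᶠ y in 𝓝 x, ∀ s ∈ I, ed (g s) U x y ≤ ENNReal.ofReal √((F s ∘ chartAt E x) y) ∧
      0 ≤ (F s ∘ chartAt E x) y := by
    have a1 : Tendsto (fun y => chartAt E x y - pt E x) (𝓝 x) (𝓝 0) :=
      tendsto_sub_nhds_zero_iff.2 ((chartAt E x).continuousAt (mem_chart_source E x))
    filter_upwards [a1.eventually (eventually_tube (v.isOpen_dom hW) (v.axis fun _ _ => hp)),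
      (chartAt E x).open_source.mem_nhds (mem_chart_source E x)] with y y1 y2 s hs
    have hm := (hg.met hs).isMetricOn x
    refine ⟨?_, Var.en_nonneg hm fun u hu => (y1 u hu).2⟩
    have a2 := v.ed_le hm fun u hu => (y1 u hu).2
    have a3 := ((ld_symm x).mono hW inter_subset_left).ed_le (h := g s) (U := U)
      (fun _ hz => hz.2) (pt E x) (chartAt E x y)
    rw [symm_pt, (chartAt E x).left_inv y2] at a3
    simp only [rA, zero_smul, one_smul, zero_apply, add_zero, ContinuousLinearMap.id_apply,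
      add_sub_cancel] at a2
    exact a3.trans a2
  refine ⟨fun s => F s ∘ chartAt E x, ⟨?_, by simp only [h0, dd_self]; norm_num,
    hev.mono fun y hy s hs => ne_top_of_le_ne_top ENNReal.ofReal_ne_top (hy s hs).1,
    hev.mono fun y hy s hs => ?_, ?_, ?_⟩, hh, ?_⟩
  · refine PS.congr (f := F) ?_ ht (he.mono fun z hz s _ => hz s)
    have h1 : ContDiffWithinAt ℝ ∞ (fun q : ℝ × E => en (co (g q.1) x) (fun _ => pt E x) (rA E) q.2)
        (I ×ˢ univ) ((fun q : ℝ × E => (q.1, q.2 - pt E x)) (t, pt E x)) := by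
      simpa using v.ps_en (Gt := fun s => co (g s) x) hI hI' hW (hg.smooth x) ht fun _ _ => hp
    exact ContDiffWithinAt.comp (f := fun q : ℝ × E => (q.1, q.2 - pt E x)) (s := I ×ˢ univ)
      (t, pt E x) h1 (by fun_prop) fun q hq => mk_mem_prod hq.1 (mem_univ _)
  · rw [← Real.sq_sqrt (hy s hs).2]
    exact pow_le_pow_left₀ dd_nonneg
      (ENNReal.toReal_le_of_le_ofReal (Real.sqrt_nonneg _) (hy s hs).1) 2
  · simp only [h0]
    exact hasDerivWithinAt_const _ _ _
  · rw [P216BF.gam_eq (hg.met ht) hx, grad_spec (hg.met ht) hx,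
      EventuallyEq.fderiv_eq (he.mono fun z hz => hz t), c1, dd_self]
    simp
  · obtain ⟨b, hb⟩ := (met_pd (hg.met ht) hx).exists_onb
    rw [P216R.lap_eq, hb.trB (met_pd (hg.met ht) hx)]
    simp [hh, hb.self, mul_comm]

theorem SupT.dd_eq (h : SupT g I U x₀ x t f) : dd (g t) U x₀ x = f t x :=
  dd_eq_of h.eq (h.nonneg _ _)

theorem SupT.dd_le (h : SupT g I U x₀ x t f) :
    ∀ᶠ y in 𝓝 x, ∀ s ∈ I, dd (g s) U x₀ y ≤ f s y :=
  h.le.mono fun _ hy s hs => ENNReal.toReal_le_of_le_ofReal (h.nonneg _ _) (hy s hs)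

/-- the barrier along a minimising geodesic -/
theorem energy (hg : RF g I U) (hI : Convex ℝ I) (hI' : UniqueDiffOn ℝ I) (ht : t ∈ I)
    {γ : ℝ → M} {L : ℝ} (hγ : MinGeo (g t) U γ L) : ∃ f, EB g I U (γ 0) (γ L) t
      (-2 * L * ∫ s in (0 : ℝ)..L, Ric (g t) (γ s) (P216R.vel E γ s) (P216R.vel E γ s)) f ∧
      lap (g t) (f t) (γ L) = 2 * finrank ℝ E - 2 / L *
        ∫ s in (0 : ℝ)..L, s ^ 2 * Ric (g t) (γ s) (P216R.vel E γ s) (P216R.vel E γ s) := by
  have hx := minGeo_mem hγ ⟨hγ.nonneg, le_rfl⟩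
  rcases hγ.nonneg.eq_or_lt with rfl | hL
  · obtain ⟨f, f1, -, f2⟩ := energy_self hg.toFam hI hI' ht hx
    exact ⟨f, by simpa using f1, by simpa using f2⟩
  obtain ⟨f, f1, f2, f3, f4, f5⟩ := support hg hI hI' ht hγ hL (α := fun s => s / L) (by fun_prop)
    (zero_div _) (div_self hL.ne')
  have hs : P216MP.SA E (f t) (γ L) := f1.ps.contDiffAt ht
  have hm := hg.toFam.met ht
  have hu := minGeo_sp hγ ⟨hL.le, le_rfl⟩
  refine ⟨fun s y => f s y ^ 2, ⟨f1.ps.pow 2, by rw [f1.dd_eq],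
    f1.le.mono fun y hy s hs => ne_top_of_le_ne_top ENNReal.ofReal_ne_top (hy s hs),
    f1.dd_le.mono fun y hy s hs => pow_le_pow_left₀ dd_nonneg (hy s hs) 2,
    (f5.fun_pow 2).congr_deriv (by rw [f2]; simp), ?_⟩, ?_⟩
  · have a1 : ∀ v, g t (γ L) (grad (g t) (fun y => f t y ^ 2) (γ L)) v
        = 2 * L * g t (γ L) (P216R.vel E γ L) v := fun v => by
      rw [grad_spec hm hx, ← f3, grad_spec hm hx]
      have := ((hs.differentiableAt (by simp)).hasFDerivAt.pow 2).fderiv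
      rw [rd_pt, f2] at this
      refine (congrArg (fun L => L v) this).trans ?_
      simp
    rw [P216BF.gam_eq hm hx, a1, hm.symm _ hx, a1, hu, f1.dd_eq, f2]
    ring
  · rw [P216MP.lap_comp (η := fun s => s ^ 2) (η1 := fun s => 2 * s) (η2 := 2) hs
      (Eventually.of_forall fun s => by simpa using hasDerivAt_pow 2 s)
      (by simpa using (hasDerivAt_id (f t (γ L))).const_mul 2), f4, f2, P216BF.gam_eq hm hx, f3, hu,
      intervalIntegral.integral_sub (by simp)
        ((integrable_ric hm hγ).continuousOn_mul (by fun_prop))]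
    simp only [deriv_div_const, deriv_id'', div_pow, div_mul_eq_mul_div,
      intervalIntegral.integral_div, intervalIntegral.integral_const, smul_eq_mul]
    field_simp
    ring

/-- **the energy barrier**; the bounds on the Ricci curvature are used on the closed ball through
`x` only -/
theorem energy_barrier' (hg : RF g I U) (hI : Convex ℝ I) (hI' : UniqueDiffOn ℝ I) (ht : t ∈ I)
    (hH : Hs U) {R : ℝ} (hc : Cpt (g t) U x₀ R) (hx : x ∈ bl (g t) U x₀ R) :
    ∃ f d, EB g I U x₀ x t d f ∧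
      (∀ K, (∀ y ∈ cbl (g t) U x₀ (dd (g t) U x₀ x), RicGe (g t) y (-K)) →
        d ≤ 2 * K * dd (g t) U x₀ x ^ 2 ∧
        lap (g t) (f t) x ≤ 2 * finrank ℝ E + 2 / 3 * K * dd (g t) U x₀ x ^ 2) ∧
      ∀ K, (∀ y ∈ cbl (g t) U x₀ (dd (g t) U x₀ x), RicLe (g t) y K) →
        -2 * K * dd (g t) U x₀ x ^ 2 ≤ d ∧
        lap (g t) (f t) x - d ≤ 2 * finrank ℝ E + 4 / 3 * K * dd (g t) U x₀ x ^ 2 := by
  have hm := hg.toFam.met ht
  rcases eq_or_ne x₀ x with rfl | hne
  · obtain ⟨f, f1, -, f2⟩ := energy_self hg.toFam hI hI' ht (mem_of_bl hx).1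
    exact ⟨f, 0, f1, by simp [f2, dd_self], by simp [f2, dd_self]⟩
  obtain ⟨γ, hγ, rfl, e⟩ := exists_minGeo_ne hm hH hc hx hne
  have hL := hm.dd_pos hH (ne_top_of_bl hx) hne
  obtain ⟨f, f1, f2⟩ := energy hg hI hI' ht hγ
  rw [e] at f1 f2
  generalize dd (g t) U (γ 0) x = L at *
  have hi := integrable_ric hm hγ
  have key : ∀ (κ : ℝ → ℝ) (K : ℝ), IntervalIntegrable κ volume 0 L → (∀ s ∈ Icc 0 L, κ s ≤ K) →
      (∫ s in (0 : ℝ)..L, κ s) ≤ K * L ∧ (∫ s in (0 : ℝ)..L, s ^ 2 * κ s) ≤ K * L ^ 3 / 3 ∧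
      L ^ 2 * (∫ s in (0 : ℝ)..L, κ s) - (∫ s in (0 : ℝ)..L, s ^ 2 * κ s)
        ≤ 2 / 3 * K * L ^ 3 := fun κ K h1 h2 => by
    have h3 := h1.continuousOn_mul (g := fun s => s ^ 2) (by fun_prop)
    have a1 := intervalIntegral.integral_mono_on hL.le h1 intervalIntegrable_const h2
    have a2 := intervalIntegral.integral_mono_on (g := fun s => s ^ 2 * K) hL.le h3
      (Continuous.intervalIntegrable (by fun_prop) _ _)
      fun s hs => mul_le_mul_of_nonneg_left (h2 s hs) (sq_nonneg s)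
    have a3 := intervalIntegral.integral_mono_on (g := fun s => L ^ 2 * K - s ^ 2 * K) hL.le
      ((h1.const_mul (L ^ 2)).sub h3) (Continuous.intervalIntegrable (by fun_prop) _ _)
      fun s hs => by
        linarith [mul_le_mul_of_nonneg_left (h2 s hs) (sub_nonneg.2 (pow_le_pow_left₀ hs.1 hs.2 2))]
    rw [intervalIntegral.integral_sub (h1.const_mul _) h3, intervalIntegral.integral_const_mul,
      intervalIntegral.integral_sub (by simp) (Continuous.intervalIntegrable (by fun_prop) _ _)]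
      at a3
    simp only [intervalIntegral.integral_const, intervalIntegral.integral_mul_const, integral_pow,
      sub_zero, smul_eq_mul] at a1 a2 a3
    norm_num at a2 a3
    exact ⟨by linarith, by linarith, by linarith⟩
  have hb : ∀ s ∈ Icc 0 L, γ s ∈ cbl (g t) U (γ 0) L := fun s hs =>
    (minGeo_ed' hγ hs).trans_le (ENNReal.ofReal_le_ofReal hs.2)
  refine ⟨f, _, f1, fun K hK => ?_, fun K hK => ?_⟩
  · obtain ⟨a1, a2, -⟩ := key _ K hi.neg fun s hs => by
      have := hK _ (hb s hs) (P216R.vel E γ s)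
      rw [minGeo_sp hγ hs] at this
      simp only [Pi.neg_apply]
      linarith
    simp only [Pi.neg_apply, mul_neg, intervalIntegral.integral_neg] at a1 a2
    refine ⟨by nlinarith, ?_⟩
    rw [f2, sub_eq_add_neg, ← mul_neg]
    refine add_le_add le_rfl ((mul_le_mul_of_nonneg_left a2 (by positivity)).trans_eq ?_)
    field_simp
  · obtain ⟨a1, -, a3⟩ := key _ K hi fun s hs => by
      simpa only [minGeo_sp hγ hs, mul_one] using hK _ (hb s hs) (P216R.vel E γ s)
    refine ⟨by nlinarith, ?_⟩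
    have a4 := mul_le_mul_of_nonneg_left a3 (by positivity : 0 ≤ 2 / L)
    have a5 : 2 / L * (2 / 3 * K * L ^ 3) = 4 / 3 * K * L ^ 2 := by field_simp; ring
    have a6 : 2 / L * L ^ 2 = 2 * L := by field_simp
    rw [a5, mul_sub, ← mul_assoc, a6] at a4
    rw [f2]
    linarith

theorem cbl_dd_subset {g : Ten E M} {R : ℝ} (hx : x ∈ bl g U x₀ R) :
    cbl g U x₀ (dd g U x₀ x) ⊆ bl g U x₀ R := cbl_subset_bl (pos_of_mem_bl hx) (dd_lt_of_bl hx)

/-- **the energy barrier** for `|Ric| ≤ K` -/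
theorem energy_barrier (hg : RF g I U) (hI : Convex ℝ I) (hI' : UniqueDiffOn ℝ I) (ht : t ∈ I)
    (hH : Hs U) {R K : ℝ} (hc : Cpt (g t) U x₀ R) (hx : x ∈ bl (g t) U x₀ R)
    (hK : ∀ y ∈ bl (g t) U x₀ R, RicGe (g t) y (-K) ∧ RicLe (g t) y K) :
    ∃ f d, EB g I U x₀ x t d f ∧ |d| ≤ 2 * K * dd (g t) U x₀ x ^ 2 ∧
      lap (g t) (f t) x ≤ 2 * finrank ℝ E + 2 / 3 * K * dd (g t) U x₀ x ^ 2 ∧
      lap (g t) (f t) x - d ≤ 2 * finrank ℝ E + 4 / 3 * K * dd (g t) U x₀ x ^ 2 := by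
  obtain ⟨f, d, f1, f2, f3⟩ := energy_barrier' hg hI hI' ht hH hc hx
  obtain ⟨a1, a2⟩ := f2 K fun y hy => (hK y (cbl_dd_subset hx hy)).1
  obtain ⟨a3, a4⟩ := f3 K fun y hy => (hK y (cbl_dd_subset hx hy)).2
  exact ⟨f, d, f1, abs_le.2 ⟨by linarith, a1⟩, a2, a4⟩

theorem EB.sa (h : EB g I U x₀ x t d f) (ht : t ∈ I) : P216MP.SA E (f t) x := h.ps.contDiffAt ht

/-- the barrier in the chart at `x` -/
theorem EB.le_chart (h : EB g I U x₀ x t d f) : ∀ᶠ q in 𝓝[I ×ˢ univ] (t, pt E x),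
    dd (g q.1) U x₀ ((chartAt E x).symm q.2) ^ 2 ≤ rd E (f q.1) x q.2 := by
  filter_upwards [mem_nhdsWithin_of_mem_nhds ((continuous_snd.tendsto (t, pt E x)).eventually
    (P216MP.ev_rd h.le)), self_mem_nhdsWithin] with q h1 h2 using h1 q.1 h2.1

theorem EB.up (h : EB g I U x₀ x t d f) (ht : t ∈ I) (hI : I ∈ 𝓝[<] t) :
    P216MP.Up E (fun s y => dd (g s) U x₀ y ^ 2) t x d (f t) :=
  (P216MP.up_smooth hI h.dt (h.sa ht)).of_le h.eq.symm
    (mem_of_superset hI fun s hs => h.le.self_of_nhds s hs) (h.le.mono fun _ hy => hy t ht)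

theorem SupT.up (h : SupT g I U x₀ x t f) (ht : t ∈ I) (hI : I ∈ 𝓝[<] t)
    (hd : HasDerivWithinAt (fun s => f s x) d I t) :
    P216MP.Up E (fun s y => dd (g s) U x₀ y) t x d (f t) :=
  (P216MP.up_smooth hI hd (h.ps.contDiffAt ht)).of_le h.dd_eq
    (mem_of_superset hI fun s hs => h.dd_le.self_of_nhds s hs) (h.dd_le.mono fun _ hy => hy t ht)

end Vale.Agent.P216L
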