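import Vale.Agent.P216L.Bar
import Vale.Agent.P216B.Fam
import Vale.Agent.P216DC.Stm2
import Mathlib.Analysis.SpecialFunctions.SmoothTransition

/-!
# P216L: the change of distances under Ricci flow (Perelman I.8.3)
-/

open scoped Manifold ContDiff Topology
open Set MeasureTheory Module Filter

set_option maxSynthPendingDepth 3
set_option linter.unusedSectionVars false

noncomputable section

namespace Vale.Agent.P216L

open Vale.Agent.P216R Vale.Agent.P216BF Vale.Agent.P216CP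

theorem exists_cT : ∃ C > 0, ∀ s ∈ Icc (0 : ℝ) 1, deriv Real.smoothTransition s ^ 2 ≤ C := by
  obtain ⟨C, hC⟩ := isCompact_Icc.exists_bound_of_continuousOn (s := Icc (0 : ℝ) 1)
    (((Real.smoothTransition.contDiff (n := 1)).continuous_deriv le_rfl).pow 2).continuousOn
  exact ⟨max C 1, lt_max_of_lt_right one_pos,
    fun s hs => (le_abs_self _).trans ((hC s hs).trans (le_max_left _ _))⟩

/-- a universal constant -/
def cT : ℝ := exists_cT.choose

theorem cT_pos : 0 < cT := exists_cT.choose_spec.1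

/-- the profile which is `1` after `r` -/
def pf (r s : ℝ) : ℝ := Real.smoothTransition (s / r)

theorem contDiff_pf (r : ℝ) : ContDiff ℝ ∞ (pf r) :=
  Real.smoothTransition.contDiff.comp (contDiff_id.div_const r)

theorem pf_zero (r : ℝ) : pf r 0 = 0 := by simp [pf]

theorem pf_one {r s : ℝ} (hr : 0 < r) (h : r ≤ s) : pf r s = 1 :=
  Real.smoothTransition.one_of_one_le ((one_le_div hr).2 h)

theorem deriv_pf_le {r s : ℝ} (hr : 0 < r) (hs : s ∈ Icc 0 r) : deriv (pf r) s ^ 2 ≤ cT / r ^ 2 := by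
  have h1 := (((Real.smoothTransition.contDiff (n := 1)).differentiable one_ne_zero)
    (s / r)).hasDerivAt.comp s ((hasDerivAt_id s).div_const r)
  rw [show deriv (pf r) s = _ from h1.deriv, mul_one_div, div_pow]
  exact div_le_div_of_nonneg_right (exists_cT.choose_spec.2 _
    ⟨div_nonneg hs.1 hr.le, (div_le_one hr).2 hs.2⟩) (sq_nonneg r)

theorem int_pf_le {κ : ℝ → ℝ} {a r K n : ℝ} (hκ : ContinuousOn κ (Icc 0 a)) (hr : 0 < r)
    (ha : r ≤ a) (hK : 0 ≤ K) (hn : 0 ≤ n) (h : ∀ s ∈ Ioo 0 r, κ s ≤ K) :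
    ∫ s in (0 : ℝ)..a, ((n - 1) * deriv (pf r) s ^ 2 - pf r s ^ 2 * κ s)
      ≤ n * cT / r + K * r - ∫ s in (0 : ℝ)..a, κ s := by
  have c1 := (contDiff_pf r).continuous
  have c2 := (contDiff_pf r).continuous_deriv (by simp)
  have hF : ContinuousOn (fun s => (n - 1) * deriv (pf r) s ^ 2 - pf r s ^ 2 * κ s + κ s)
      (Icc 0 a) := by fun_prop
  have i0 := hκ.intervalIntegrable_of_Icc (μ := volume) (hr.le.trans ha)
  have i1 := (hF.mono (Icc_subset_Icc_right ha)).intervalIntegrable_of_Icc (μ := volume) hr.le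
  have i2 := (hF.mono (Icc_subset_Icc_left hr.le)).intervalIntegrable_of_Icc (μ := volume) ha
  have a1 := intervalIntegral.integral_mono_on_of_le_Ioo (g := fun _ => n * cT / r ^ 2 + K) hr.le i1
    intervalIntegrable_const fun s hs => by
      have b1 := mul_le_mul_of_nonneg_left (deriv_pf_le hr (Ioo_subset_Icc_self hs)) hn
      have b2 : pf r s ^ 2 ≤ 1 :=
        pow_le_one₀ (Real.smoothTransition.nonneg _) (Real.smoothTransition.le_one _)
      rw [mul_div_assoc]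
      nlinarith [mul_le_mul_of_nonneg_left (h s hs) (sub_nonneg.2 b2), sq_nonneg (deriv (pf r) s),
        mul_nonneg hK (sq_nonneg (pf r s))]
  have a2 := intervalIntegral.integral_mono_on_of_le_Ioo (g := fun _ => 0) ha i2
    intervalIntegrable_const fun s hs => by
      have b1 : pf r =ᶠ[𝓝 s] fun _ => 1 :=
        (lt_mem_nhds hs.1).mono fun u hu => pf_one hr (le_of_lt hu)
      simp [b1.deriv_eq, pf_one hr hs.1.le]
  have a3 := intervalIntegral.integral_add_adjacent_intervals i1 i2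
  rw [intervalIntegral.integral_add (by simpa using (i1.trans i2).sub i0) i0] at a3
  have a4 : r * (n * cT / r ^ 2 + K) = n * cT / r + K * r := by field_simp
  simp only [intervalIntegral.integral_const, smul_eq_mul, sub_zero, mul_zero, a4] at a1 a2
  linarith

variable {E : Type} [NormedAddCommGroup E] [NormedSpace ℝ E] [FiniteDimensional ℝ E]
  {M : Type} [TopologicalSpace M] [ChartedSpace E M] [IsManifold 𝓘(ℝ, E) ∞ M]

section Static

variable {g : Ten E M} {U : Set M} {γ : ℝ → M} {L : ℝ}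

/-- the second variation inequality for a minimising geodesic, in terms of support functions -/
theorem lap_add_nonneg (hg : Met g U) {x y m : M} {f k : M → ℝ} (hf : Sup g U x m f)
    (hk : Sup g U y m k) (h1 : 0 < f m) (h2 : 0 < k m)
    (h : ed g U x y = ENNReal.ofReal (f m + k m)) : 0 ≤ lap g f m + lap g k m := by
  rw [← P216MP.lap_add (P216MP.sa_of hf.smooth) (P216MP.sa_of hk.smooth)]
  refine P216MP.lap_nonneg hg (mem_of_ed_ne (hf.eq ▸ ENNReal.ofReal_ne_top)).2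
    ((P216MP.sa_of hf.smooth).add (P216MP.sa_of hk.smooth)) ?_
  filter_upwards [hf.le, hk.le, hf.smooth.continuousAt.eventually (lt_mem_nhds h1),
    hk.smooth.continuousAt.eventually (lt_mem_nhds h2)] with z z1 z2 z3 z4
  have := ed_le_add z1 (ed_comm.trans_le z2) z3.le z4.le
  rwa [h, ENNReal.ofReal_le_ofReal_iff (by linarith)] at this

/-- the total Ricci curvature of a minimising geodesic, from bounds near the ends -/
theorem int_ric_le (hg : Met g U) (hγ : MinGeo g U γ L) {r K : ℝ} (hr : 0 < r) (hK : 0 ≤ K)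
    (h : ∀ s ∈ Icc 0 L, s < r ∨ L - r < s → Ric g (γ s) (vel E γ s) (vel E γ s) ≤ K) :
    ∫ s in (0 : ℝ)..L, Ric g (γ s) (vel E γ s) (vel E γ s) ≤ 2 * (finrank ℝ E * cT / r + K * r) := by
  have hi := integrable_ric hg hγ
  have hn : (0 : ℝ) ≤ finrank ℝ E := Nat.cast_nonneg _
  have hT := cT_pos
  rcases lt_or_ge L (2 * r) with hL | hL
  · have a1 := intervalIntegral.integral_mono_on (g := fun _ => K) hγ.nonneg hi
      intervalIntegrable_const fun s hs => h s hs ((lt_or_ge s r).imp_right fun _ => by linarith)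
    simp only [intervalIntegral.integral_const, smul_eq_mul, sub_zero] at a1
    have a2 : 0 ≤ finrank ℝ E * cT / r := by positivity
    nlinarith
  have h0 : 0 < L / 2 := by linarith
  have h1 := minGeo_mono hγ h0.le (by linarith)
  obtain ⟨r1, r2⟩ := minGeo_rev hγ
  have h2 := minGeo_mono r1 h0.le (by linarith)
  obtain ⟨f, f1, f2, -, f4, -⟩ := support0 hg h1 h0 (contDiff_pf r) (pf_zero r)
    (pf_one hr (by linarith))
  obtain ⟨k, k1, k2, -, k4, -⟩ := support0 hg h2 h0 (contDiff_pf r) (pf_zero r)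
    (pf_one hr (by linarith))
  have a1 := int_pf_le (continuousOn_ric hg h1) hr (by linarith) hK hn fun s hs =>
    h s ⟨hs.1.le, by linarith [hs.2]⟩ (Or.inl hs.2)
  have e : ∀ s ∈ Icc 0 (L / 2), Ric g (γ (L - s)) (vel E (fun t => γ (L - t)) s)
      (vel E (fun t => γ (L - t)) s) = Ric g (γ (L - s)) (vel E γ (L - s)) (vel E γ (L - s)) :=
    fun s hs => by simp [r2 s ⟨hs.1, by linarith [hs.2]⟩]
  have a2 := int_pf_le (continuousOn_ric hg h2) hr (by linarith) hK hn fun s hs => by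
    rw [e s ⟨hs.1.le, by linarith [hs.2]⟩]
    exact h _ ⟨by linarith [hs.2], by linarith [hs.1]⟩ (Or.inr (by linarith [hs.2]))
  rw [← f4] at a1
  rw [← k4, intervalIntegral.integral_congr (fun s hs => e s (by rwa [uIcc_of_le h0.le] at hs)),
    intervalIntegral.integral_comp_sub_left (fun s => Ric g (γ s) (vel E γ s) (vel E γ s))] at a2
  simp only [sub_half, sub_zero] at a2 k1 k2
  have a3 := lap_add_nonneg hg f1 k1 (by rwa [f2]) (by rwa [k2])
    (by rw [f2, k2, add_halves, minGeo_ed hγ])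
  have a4 := intervalIntegral.integral_add_adjacent_intervals
    (hi.mono_set (by rw [uIcc_of_le h0.le, uIcc_of_le hγ.nonneg]; exact Icc_subset_Icc_right (by
      linarith)))
    (hi.mono_set (d := L) (by
      rw [uIcc_of_le (by linarith), uIcc_of_le hγ.nonneg]; exact Icc_subset_Icc_left h0.le))
  linarith

theorem int_ric_le_sqrt (hg : Met g U) (hγ : MinGeo g U γ L) {K : ℝ} (hK : 0 ≤ K)
    (h : ∀ s ∈ Icc 0 L, Ric g (γ s) (vel E γ s) (vel E γ s) ≤ K) :
    ∫ s in (0 : ℝ)..L, Ric g (γ s) (vel E γ s) (vel E γ s) ≤ 2 * (finrank ℝ E * cT + 1) * √K := by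
  rcases hK.eq_or_lt with rfl | h0
  · simpa using intervalIntegral.integral_mono_on (g := fun _ => 0) hγ.nonneg
      (integrable_ric hg hγ) intervalIntegrable_const h
  have h1 := Real.sqrt_pos.2 h0
  refine (int_ric_le hg hγ (inv_pos.2 h1) hK fun s hs _ => h s hs).trans_eq ?_
  rw [← div_eq_mul_inv K, Real.div_sqrt, div_inv_eq_mul]
  ring

theorem ric_le_of (hγ : MinGeo g U γ L) {s K : ℝ} (hs : s ∈ Icc 0 L) (h : RicLe g (γ s) K) :
    Ric g (γ s) (vel E γ s) (vel E γ s) ≤ K := by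
  simpa only [minGeo_sp hγ hs, mul_one] using h (vel E γ s)

theorem mem_bl_left (hγ : MinGeo g U γ L) {s r : ℝ} (hs : s ∈ Icc 0 L) (h : s < r) :
    γ s ∈ bl g U (γ 0) r :=
  (minGeo_ed' hγ hs).trans_lt ((ENNReal.ofReal_lt_ofReal_iff (hs.1.trans_lt h)).2 h)

theorem mem_bl_right (hγ : MinGeo g U γ L) {s r : ℝ} (hs : s ∈ Icc 0 L) (h : L - r < s) :
    γ s ∈ bl g U (γ L) r := by
  refine (hγ.min L ⟨hγ.nonneg, le_rfl⟩ s hs).trans_lt ?_
  rw [abs_of_nonneg (sub_nonneg.2 hs.2)]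
  exact (ENNReal.ofReal_lt_ofReal_iff (by linarith [hs.2])).2 (by linarith)

end Static

variable {g : ℝ → Ten E M} {I : Set ℝ} {U : Set M} {x y : M} {a b t r : ℝ}

/-- **I.8.3 (a)** in the barrier sense -/
theorem dist_barrier (hg : RF g I U) (hI : Convex ℝ I) (hI' : UniqueDiffOn ℝ I) (ht : t ∈ I)
    {γ : ℝ → M} {L K : ℝ} (hγ : MinGeo (g t) U γ L) (hr : 0 < r) (hL : r ≤ L) (hK : 0 ≤ K)
    (h : ∀ z ∈ bl (g t) U (γ 0) r, RicLe (g t) z K) :
    ∃ f d, SupT g I U (γ 0) (γ L) t f ∧ HasDerivWithinAt (fun s => f s (γ L)) d I t ∧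
      gam (g t) (f t) (f t) (γ L) = 1 ∧
      lap (g t) (f t) (γ L) - d ≤ finrank ℝ E * cT / r + K * r := by
  have hm := hg.toFam.met ht
  have h1 : L ∈ Icc 0 L := ⟨hγ.nonneg, le_rfl⟩
  obtain ⟨f, f1, -, f3, f4, f5⟩ := support hg hI hI' ht hγ (hr.trans_le hL) (contDiff_pf r)
    (pf_zero r) (pf_one hr hL)
  refine ⟨f, _, f1, f5, by rw [P216BF.gam_eq hm (minGeo_mem hγ h1), f3, minGeo_sp hγ h1], ?_⟩
  have := int_pf_le (continuousOn_ric hm hγ) hr hL hK (Nat.cast_nonneg (finrank ℝ E)) fun s hs =>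
    ric_le_of hγ ⟨hs.1.le, hs.2.le.trans hL⟩ (h _ (mem_bl_left hγ ⟨hs.1.le, hs.2.le.trans hL⟩ hs.2))
  linarith

theorem dist_barrier' (hg : RF g I U) (hI : Convex ℝ I) (hI' : UniqueDiffOn ℝ I) (ht : t ∈ I)
    (hH : Hs U) {R K : ℝ} (hc : Cpt (g t) U x R) (hy : y ∈ bl (g t) U x R) (hr : 0 < r)
    (hL : r ≤ dd (g t) U x y) (hK : 0 ≤ K) (h : ∀ z ∈ bl (g t) U x r, RicLe (g t) z K) :
    ∃ f d, SupT g I U x y t f ∧ HasDerivWithinAt (fun s => f s y) d I t ∧
      gam (g t) (f t) (f t) y = 1 ∧ lap (g t) (f t) y - d ≤ finrank ℝ E * cT / r + K * r := by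
  obtain ⟨γ, hγ, rfl, e⟩ := exists_minGeo_ne (hg.toFam.met ht) hH hc hy (by
    rintro rfl
    exact absurd hL (by simpa [dd_self] using hr))
  simpa only [e] using dist_barrier hg hI hI' ht hγ hr hL hK h

/-- **integration backward in time** of a bound on the total Ricci curvature of minimisers -/
theorem ed_back (hg : RF g (Icc a b) U) (hH : Hs U) {Λ k : ℝ → ℝ} {D : ℝ}
    (hΛ : ContinuousOn Λ (Icc a b)) (hk : ∀ t ∈ Ioc a b, HasDerivWithinAt Λ (k t) (Iic t) t)
    (hc : ∀ t ∈ Icc a b, Cpt (g t) U x r) (hD : ed (g b) U x y ≤ ENNReal.ofReal D)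
    (hr : ∀ t ∈ Icc a b, D + (Λ b - Λ t) < r)
    (h : ∀ t ∈ Ioc a b, ∀ γ L, MinGeo (g t) U γ L → γ 0 = x → γ L = y → L < r →
      ∫ s in (0 : ℝ)..L, Ric (g t) (γ s) (vel E γ s) (vel E γ s) ≤ k t) :
    ∀ t ∈ Icc a b, ed (g t) U x y ≤ ENNReal.ofReal (D + (Λ b - Λ t)) := by
  intro t ht
  have hx := (mem_of_ed_ne (ne_top_of_le_ne_top ENNReal.ofReal_ne_top hD)).1
  rcases eq_or_ne x y with rfl | hne
  · exact (ed_self hx).trans_le zero_le
  have hab := ht.1.trans ht.2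
  have hb : b ∈ Icc a b := ⟨hab, le_rfl⟩
  have hpos : ∀ s ∈ Icc a b, ∀ B, ed (g s) U x y ≤ ENNReal.ofReal B → 0 < B := fun s hs B hB =>
    ((hg.toFam.met hs).dd_pos hH (ne_top_of_le_ne_top ENNReal.ofReal_ne_top hB) hne).trans_le
      (ENNReal.toReal_le_of_le_ofReal (le_of_not_gt fun h0 => hne ((hg.toFam.met hs).eq_of_ed hH
        (le_zero_iff.1 (hB.trans_eq (ENNReal.ofReal_of_nonpos h0.le))))) hB)
  have h0 : 0 < r := (hpos b hb D hD).trans (by simpa using hr b hb)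
  obtain ⟨m, hm, hmax⟩ := isCompact_Icc.exists_isMaxOn ⟨t, ht⟩
    (continuousOn_const.sub hΛ : ContinuousOn (fun t => Λ b - Λ t) _)
  have key : ∀ η > 0, D + (Λ b - Λ m) + η * (b - a) < r →
      ed (g t) U x y ≤ ENNReal.ofReal (D + (Λ b - Λ t) + η * (b - t)) := fun η hη hlt => by
    have hB : ∀ s ∈ Icc a b, D + (Λ b - Λ s) + η * (b - s) < r := fun s hs => by
      have h1 : Λ b - Λ s ≤ Λ b - Λ m := hmax hs
      nlinarith [hs.1]
    refine IsClosed.Icc_subset_of_forall_exists_lt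
      (s := {s | ed (g s) U x y ≤ ENNReal.ofReal (D + (Λ b - Λ s) + η * (b - s))}) ?_
      (by simpa using hD) (fun s hs u hu => ?_) ht
    · refine isClosed_iff_clusterPt.2 fun s hs => ?_
      have hs' : s ∈ Icc a b := isClosed_iff_clusterPt.1 isClosed_Icc s
        (hs.mono (principal_mono.2 inter_subset_right))
      refine ⟨le_of_not_gt (α := ENNReal) fun hlt => ?_, hs'⟩
      obtain ⟨ρ, -, h1, h2⟩ := ENNReal.lt_iff_exists_real_btwn.1
        (lt_min hlt ((ENNReal.ofReal_lt_ofReal_iff h0).2 (hB s hs')))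
      have h3 : 0 < ρ := ENNReal.ofReal_pos.1 (zero_le.trans_lt h1)
      obtain ⟨ρ', h4, h5⟩ := exists_between ((ENNReal.ofReal_lt_ofReal_iff h3).1 h1)
      have h6 := hg.toFam.cbl_subset_bl hH hs' hx
        (hc s hs' ρ ((ENNReal.ofReal_lt_ofReal_iff h0).1 (lt_min_iff.1 h2).2)) h3 h5
      have h7 : ContinuousWithinAt (fun s => D + (Λ b - Λ s) + η * (b - s)) (Icc a b) s :=
        ((continuousOn_const.add (continuousOn_const.sub hΛ)).add (by fun_prop)) s hs'
      obtain ⟨u, ⟨h8, h9⟩, h10⟩ := (clusterPt_principal_iff.1 hs) _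
        (eventually_nhdsWithin_iff.1 (h6.and (h7.eventually (gt_mem_nhds h4))))
        |>.imp fun u hu => And.intro (hu.1 hu.2.2) hu.2.1
      exact absurd (h8.1 (h10.trans (ENNReal.ofReal_le_ofReal h9.le))) (lt_min_iff.1 h2).1.not_gt
    · obtain ⟨h1, h2⟩ := hs
      have hs' := Ioc_subset_Icc_self h2
      have hy : y ∈ bl (g s) U x r :=
        lt_of_le_of_lt h1 ((ENNReal.ofReal_lt_ofReal_iff h0).2 (hB s hs'))
      have hm := hg.toFam.met hs'
      obtain ⟨γ, hγ, e0, e⟩ := exists_minGeo_ne hm hH (hc s hs') hy hne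
      have hL := hm.dd_pos hH (ne_top_of_bl hy) hne
      obtain ⟨f, f1, f2, -, -, f5⟩ := support hg (convex_Icc a b)
        (uniqueDiffOn_Icc (h2.1.trans_le h2.2)) hs' hγ hL (α := fun u => u / dd (g s) U x y)
        (by fun_prop) (zero_div _) (div_self hL.ne')
      rw [e] at f1 f2 f5
      rw [e0] at f1
      have h3 := h s h2 γ _ hγ e0 e (dd_lt_of_bl hy)
      have h4 : Icc a b ∈ 𝓝[Iic s] s := mem_of_superset (Ioc_mem_nhdsLE h2.1)
        fun u hu => ⟨hu.1.le, hu.2.trans h2.2⟩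
      have h5 := ((f5.mono_of_mem_nhdsWithin h4).add (hk s h2)).add
        ((hasDerivWithinAt_id s _).const_mul η)
      by_contra h6
      have h7 := P216MP.deriv_nonpos_of_left h5 (by
        filter_upwards [Ioo_mem_nhdsLT hu, Ioo_mem_nhdsLT h2.1] with v v1 v2
        refine le_of_not_gt fun h8 => h6 ⟨v, ?_, v1.1.le, v1.2⟩
        refine (f1.le.self_of_nhds v ⟨v2.1.le, v2.2.le.trans h2.2⟩).trans
          (ENNReal.ofReal_le_ofReal ?_)
        have h9 : dd (g s) U x y ≤ _ := ENNReal.toReal_le_of_le_ofReal (hpos s hs' _ h1).le h1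
        simp only [Pi.add_apply, id] at h8
        linarith)
      linarith
  have h1 : Tendsto (fun η : ℝ => D + (Λ b - Λ m) + η * (b - a)) (𝓝[>] 0) (𝓝 (D + (Λ b - Λ m))) :=
    (Continuous.tendsto' (by fun_prop) _ _ (by simp)).mono_left nhdsWithin_le_nhds
  refine ge_of_tendsto (f := fun η : ℝ => ENNReal.ofReal (D + (Λ b - Λ t) + η * (b - t)))
    (x := 𝓝[>] 0) ((Continuous.tendsto' (ENNReal.continuous_ofReal.comp (by fun_prop)) _ _
      (by simp)).mono_left nhdsWithin_le_nhds) ?_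
  filter_upwards [h1.eventually (gt_mem_nhds (hr m hm)), self_mem_nhdsWithin] with η h2 h3
    using key η h3 h2

/-- constant rate -/
theorem ed_back_const (hg : RF g (Icc a b) U) (hH : Hs U) (hab : a ≤ b) {k : ℝ} (hk : 0 ≤ k)
    (hc : ∀ t ∈ Icc a b, Cpt (g t) U x r)
    (hr : ed (g b) U x y + ENNReal.ofReal (k * (b - a)) < ENNReal.ofReal r)
    (h : ∀ t ∈ Ioc a b, ∀ γ L, MinGeo (g t) U γ L → γ 0 = x → γ L = y → L < r →
      ∫ s in (0 : ℝ)..L, Ric (g t) (γ s) (vel E γ s) (vel E γ s) ≤ k) :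
    ed (g a) U x y ≤ ed (g b) U x y + ENNReal.ofReal (k * (b - a)) := by
  have h1 := ofReal_dd (ne_top_of_lt (le_self_add.trans_lt hr))
  have h2 : 0 ≤ k * (b - a) := mul_nonneg hk (sub_nonneg.2 hab)
  rw [← h1, ← ENNReal.ofReal_add dd_nonneg h2] at hr ⊢
  rw [ENNReal.ofReal_lt_ofReal_iff (ENNReal.ofReal_pos.1 (zero_le.trans_lt hr))] at hr
  rw [mul_sub]
  exact ed_back hg hH (Λ := fun t => k * t) (by fun_prop)
    (fun t _ => by simpa using (hasDerivWithinAt_id t _).const_mul k) hc h1.ge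
    (fun t ht => by nlinarith [ht.1]) h a ⟨le_rfl, hab⟩

/-- **I.8.3 (b)**: upper Ricci bounds near the two points -/
theorem ed_back_ends (hg : RF g (Icc a b) U) (hH : Hs U) (hab : a ≤ b) {ρ K : ℝ} (hρ : 0 < ρ)
    (hK : 0 ≤ K) (hc : ∀ t ∈ Icc a b, Cpt (g t) U x r)
    (h : ∀ t ∈ Ioc a b, ∀ z ∈ bl (g t) U x ρ ∪ bl (g t) U y ρ, RicLe (g t) z K)
    (hr : ed (g b) U x y + ENNReal.ofReal (2 * (finrank ℝ E * cT / ρ + K * ρ) * (b - a))
      < ENNReal.ofReal r) : ed (g a) U x y ≤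
      ed (g b) U x y + ENNReal.ofReal (2 * (finrank ℝ E * cT / ρ + K * ρ) * (b - a)) := by
  have := cT_pos
  refine ed_back_const hg hH hab (by positivity) hc hr ?_
  rintro t ht γ L hγ rfl rfl -
  exact int_ric_le (hg.toFam.met (Ioc_subset_Icc_self ht)) hγ hρ hK fun s hs h1 => ric_le_of hγ hs
    (h t ht _ (h1.imp (mem_bl_left hγ hs) (mem_bl_right hγ hs)))

/-- upper Ricci bounds on the ball -/
theorem ed_back_ball (hg : RF g (Icc a b) U) (hH : Hs U) (hab : a ≤ b) {K : ℝ} (hK : 0 ≤ K)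
    (hc : ∀ t ∈ Icc a b, Cpt (g t) U x r) (h : ∀ t ∈ Ioc a b, ∀ z ∈ bl (g t) U x r, RicLe (g t) z K)
    (hr : ed (g b) U x y + ENNReal.ofReal (2 * (finrank ℝ E * cT + 1) * √K * (b - a))
      < ENNReal.ofReal r) : ed (g a) U x y ≤
      ed (g b) U x y + ENNReal.ofReal (2 * (finrank ℝ E * cT + 1) * √K * (b - a)) := by
  have := cT_pos
  refine ed_back_const hg hH hab (by positivity) hc hr ?_
  rintro t ht γ L hγ rfl rfl hL
  exact int_ric_le_sqrt (hg.toFam.met (Ioc_subset_Icc_self ht)) hγ hK fun s hs => ric_le_of hγ hs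
    (h t ht _ (mem_bl_left hγ hs (hs.2.trans_lt hL)))

/-- time dependent bounds: `Λ' ≥ c √K` -/
theorem ed_back_var (hg : RF g (Icc a b) U) (hH : Hs U) {Λ k K : ℝ → ℝ} {D : ℝ}
    (hΛ : ContinuousOn Λ (Icc a b)) (hk : ∀ t ∈ Ioc a b, HasDerivWithinAt Λ (k t) (Iic t) t ∧
      0 ≤ K t ∧ 2 * (finrank ℝ E * cT + 1) * √(K t) ≤ k t ∧
      ∀ z ∈ bl (g t) U x r, RicLe (g t) z (K t))
    (hc : ∀ t ∈ Icc a b, Cpt (g t) U x r) (hD : ed (g b) U x y ≤ ENNReal.ofReal D)
    (hr : ∀ t ∈ Icc a b, D + (Λ b - Λ t) < r) :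
    ∀ t ∈ Icc a b, ed (g t) U x y ≤ ENNReal.ofReal (D + (Λ b - Λ t)) := by
  refine ed_back hg hH hΛ (fun t ht => (hk t ht).1) hc hD hr ?_
  rintro t ht γ L hγ rfl rfl hL
  exact (int_ric_le_sqrt (hg.toFam.met (Ioc_subset_Icc_self ht)) hγ (hk t ht).2.1 fun s hs =>
    ric_le_of hγ hs ((hk t ht).2.2.2 _ (mem_bl_left hγ hs (hs.2.trans_lt hL)))).trans (hk t ht).2.2.1

/-- complete flows -/
theorem dd_back_cpl (hg : RF g (Icc a b) U) (hH : Hs U) {Λ k : ℝ → ℝ}
    (hΛ : ContinuousOn Λ (Icc a b)) (hk : ∀ t ∈ Ioc a b, HasDerivWithinAt Λ (k t) (Iic t) t)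
    (hc : ∀ t ∈ Icc a b, Cpl (g t) U) (hf : ed (g b) U x y ≠ ⊤)
    (h : ∀ t ∈ Ioc a b, ∀ γ L, MinGeo (g t) U γ L → γ 0 = x → γ L = y →
      ∫ s in (0 : ℝ)..L, Ric (g t) (γ s) (vel E γ s) (vel E γ s) ≤ k t) :
    ∀ t ∈ Icc a b, ed (g t) U x y ≤ ENNReal.ofReal (dd (g b) U x y + (Λ b - Λ t)) := by
  obtain ⟨C, hC⟩ := isCompact_Icc.bddAbove_image
    (continuousOn_const.add (continuousOn_const.sub hΛ) :
      ContinuousOn (fun t => dd (g b) U x y + (Λ b - Λ t)) _)
  exact ed_back (r := C + 1) hg hH hΛ hk (fun t ht => (hc t ht).cpt (mem_of_ed_ne hf).1 _)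
    (ofReal_dd hf).ge (fun t ht => (hC (mem_image_of_mem _ ht)).trans_lt (lt_add_one C))
    fun t ht γ L h1 h2 h3 _ => h t ht γ L h1 h2 h3

theorem dist : P216DC.DIST := by
  have := cT_pos
  exact ⟨2 * (finrank ℝ E3 * cT + 1), by positivity, fun M _ _ _ g V x y a b r K hab hK hg hH h hr =>
    ed_back_ball hg hH hab hK (fun t ht => (h t ht).1)
      (fun t ht => (h t (Ioc_subset_Icc_self ht)).2) hr⟩

end Vale.Agent.P216L
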