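import Vale.Agent.P216L.Dist
import Vale.Agent.P216FA.Plan
import Vale.Agent.P216BF.Vol
import Vale.Agent.P216BF.Curv

/-!
# P216L: points of bounded curvature are uniformly dense up to the initial time
-/

open scoped Manifold ContDiff Topology
open Set MeasureTheory Module Filter

set_option maxSynthPendingDepth 3

noncomputable section

namespace Vale.Agent.P216L

open Vale.Agent.P216R Vale.Agent.P216BF Vale.Agent.P216CP Vale.Agent.P216FA Vale.Agent.P216DC

section

variable {M : Type} [TopologicalSpace M] [ChartedSpace E3 M] [IsManifold 𝓘(ℝ, E3) ∞ M]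
  {g : ℝ → Ten E3 M} {U : Set M} {a b : ℝ} {x y : M}

/-- the constant in the distance estimate for flows with `R ≤ B / (s - a)` -/
def cH : ℝ := 4 * (finrank ℝ E3 * cT + 1)

theorem cH_pos : 0 < cH := by
  have := cT_pos
  unfold cH
  positivity

/-- distances at the initial time when `R ≤ B / (s - a)` and `sec ≥ 0` -/
theorem ed_back_sing (hg : RF g (Icc a b) U) (hab : a ≤ b) (hH : Hs U) {B : ℝ} (hB : 0 ≤ B)
    (hc : ∀ s ∈ Icc a b, Cpl (g s) U) (hs : ∀ s ∈ Ioc a b, ∀ z ∈ U, SecGe (g s) z 0)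
    (hR : ∀ s ∈ Ioc a b, ∀ z ∈ U, (s - a) * Sc (g s) z ≤ B) (hf : ed (g b) U x y ≠ ⊤) :
    ed (g a) U x y ≤ ENNReal.ofReal (dd (g b) U x y + cH * √B * √(b - a)) := by
  have := dd_back_cpl hg hH (Λ := fun s => cH * √B * √(s - a))
    (k := fun s => cH * √B * (1 / (2 * √(s - a)))) (by fun_prop) (fun s hs => ?_) hc hf
    (fun s hs' γ L hγ _ _ => ?_) a ⟨le_rfl, hab⟩
  · simpa using this
  · exact ((((hasDerivAt_id s).sub_const a).sqrt (sub_pos.2 hs.1).ne').const_mul
      _).hasDerivWithinAt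
  · have h0 := sub_pos.2 hs'.1
    have hm := hg.toFam.met (Ioc_subset_Icc_self hs')
    refine (int_ric_le_sqrt hm hγ (K := B / (s - a)) (by positivity) fun u hu => ?_).trans_eq ?_
    · have hz := minGeo_mem hγ hu
      refine ric_le_of hγ hu ((ricLe_sc3 finrank_E3 hm hz (κ := 0)
        (by simpa using hs s hs' _ hz)).mono (hm.nonneg hz) ?_)
      have h1 := hR s hs' _ hz
      have h2 : 0 ≤ B / (s - a) := by positivity
      have h3 : Sc (g s) (γ u) ≤ B / (s - a) := by rwa [le_div_iff₀' h0]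
      linarith
    · rw [Real.sqrt_div hB, cH]
      ring

end

theorem lowp (hH : FHARN) (hT : TV) (hN : NMP) : LOWP := by
  obtain ⟨c, hc, hT⟩ := hT
  intro X g U T κ L A hT0 hκ hA hg h hnc
  have h0 : (0 : ℝ) ∈ Ioc (-T) 0 := ⟨by linarith, le_rfl⟩
  obtain ⟨K₀, hK₀⟩ := (h 0 h0).2.2
  set B := max K₀ 1
  have hB1 : 1 ≤ B := le_max_right _ _
  have hB : ∀ x ∈ U, Sc (g 0) x ≤ B := fun x hx =>
    (hK₀ 0 ⟨le_rfl, le_rfl⟩ x hx).trans (le_max_left _ _)
  set r := (√B)⁻¹ with hr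
  have hr0 : 0 < r := inv_pos.2 (Real.sqrt_pos.2 (by linarith))
  have hrB : 1 / r ^ 2 = B := by rw [hr, inv_pow, one_div, inv_inv, Real.sq_sqrt (by linarith)]
  set D := cH * √(T * B) * √T
  have hD : 0 ≤ D := by have := cH_pos; positivity
  set l := 10 * (D + r + A + 100) with hl
  have hl0 : 0 < l := by positivity
  have hv : 0 < κ * r ^ 3 := by positivity
  have hq : 0 < c * l / (κ * r ^ 3) := by positivity
  set K := |L| + B + 1 + c * l / (κ * r ^ 3) with hK
  have hL := le_abs_self L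
  have hL0 := abs_nonneg L
  refine ⟨K, l + 1, fun t ht x hx => ?_⟩
  by_contra! H
  have hI : Icc t 0 ⊆ Ioc (-T) 0 := fun s hs => ⟨ht.1.trans_le hs.1, hs.2⟩
  have hg' : RF g (Icc t 0) U := SF.rf_sub hg hI hg.isOpen Subset.rfl
  obtain ⟨K₁, hK₁⟩ := (h t ht).2.2
  have hb : ∀ s ∈ Icc t 0, NN (g s) U ∧ ∀ x ∈ U, Sc (g s) x ≤ K₁ :=
    fun s hs => ⟨(h s (hI hs)).1, hK₁ s hs⟩
  have hn := (h t ht).1
  by_cases hU : U ⊆ bl (g t) U x (l + 1)
  · have := (hN X g U t 0 K₁ ht.2 hg' hb).1 K (fun y hy => (H y (hU hy)).le) x hx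
    linarith [hB x hx]
  obtain ⟨z, hz, hz'⟩ := not_subset.1 hU
  have hf := hn.met.ed_ne_top hn.con Subset.rfl hx hz
  obtain ⟨γ, hγ, rfl, -⟩ := exists_minGeo_cpl hn.met hn.hs hn.cpl hf
  have hγ' := minGeo_mono hγ hl0.le (by
    by_contra! h'
    exact hz' (mem_bl_iff.2 ⟨hf, by linarith⟩))
  have hK1 : 1 ≤ √K := Real.one_le_sqrt.2 (by linarith)
  have h1 := hT X (g t) U γ l K L A hn (h t ht).2.1 hγ' hA (by linarith) (by linarith)
    (fun u hu => (H _ (mem_bl_left hγ' hu (by linarith [hu.2]))).le) (by nlinarith)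
  have hm : γ (l / 2) ∈ U := minGeo_mem hγ' ⟨by linarith, by linarith⟩
  have hn0 := (h 0 h0).1
  have h2 := hnc _ hm r hr0 fun y hy => hrB ▸ hB y (bl_subset hy)
  have h3 := rf_vol_anti hg' ht.2 (hn0.cpl _ hm r).isLindelof bl_subset_cbl bl_subset
    (hn0.met.isOpen_ball _ _).measurableSet fun s hs y hy => by
      simpa using sc_ge3 finrank_E3 (hb s (Ioo_subset_Icc_self hs)).1.met (bl_subset hy)
        ((hb s (Ioo_subset_Icc_self hs)).1.sec y (bl_subset hy))
  have h4 : bl (g 0) U (γ (l / 2)) r ⊆ bl (g t) U (γ (l / 2)) (l / 10) := fun y hy => by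
    obtain ⟨e1, e2⟩ := mem_bl_iff.1 hy
    refine (ed_back_sing hg' ht.2 hn.hs (B := T * B) (by positivity) (fun s hs => (hb s hs).1.cpl)
      (fun s hs => (hb s (Ioc_subset_Icc_self hs)).1.sec) (fun s hs w hw => ?_) e1).trans_lt ?_
    · refine (hH X g U t 0 K₁ hg' hb w hw (Ioc_subset_Icc_self hs) ⟨ht.2, le_rfl⟩ hs.2).trans ?_
      have := hB w hw
      have := ht.1
      have := ht.2
      dsimp only
      nlinarith
    · refine (ENNReal.ofReal_lt_ofReal_iff (by positivity)).2 ?_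
      have : cH * √(T * B) * √(0 - t) ≤ D :=
        mul_le_mul_of_nonneg_left (Real.sqrt_le_sqrt (by linarith [ht.1]))
          (by have := cH_pos; positivity)
      linarith
  have h5 := (ENNReal.ofReal_le_ofReal_iff (by positivity)).1
    (h2.trans (h3.trans ((measure_mono h4).trans h1)))
  rw [le_div_iff₀' (by linarith), ← le_div_iff₀ hv] at h5
  linarith

end Vale.Agent.P216L
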