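import Vale.Agent.P216R.Defs
import Mathlib.Analysis.SpecialFunctions.SmoothTransition

/-!
# P216L: an immersed curve is a straight segment in one local parametrisation (tube chart)
-/

open scoped Manifold ContDiff Topology
open Set

set_option maxSynthPendingDepth 3
set_option linter.unusedSectionVars false

noncomputable section

namespace Vale.Agent.P216L

open Vale.Agent.P216R Vale.Agent.P219.RG

variable {E : Type} [NormedAddCommGroup E] [NormedSpace ℝ E] [FiniteDimensional ℝ E]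

/-- the linear map sending `b` to `a`, identity on the kernel of `l` -/
def trv (l : E →L[ℝ] ℝ) (a b : E) : E →L[ℝ] E :=
  ContinuousLinearMap.id ℝ E + (l b)⁻¹ • l.smulRight (a - b)

theorem trv_apply (l : E →L[ℝ] ℝ) (a b w : E) : trv l a b w = w + ((l b)⁻¹ * l w) • (a - b) := by
  simp [trv, mul_smul]

theorem trv_self (l : E →L[ℝ] ℝ) (a w : E) : trv l a a w = w := by simp [trv_apply]

theorem trv_base {l : E →L[ℝ] ℝ} {b : E} (hb : l b ≠ 0) (a : E) : trv l a b b = a := by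
  simp [trv_apply, inv_mul_cancel₀ hb]

theorem trv_inj {l : E →L[ℝ] ℝ} {a b : E} (ha : l a ≠ 0) (hb : l b ≠ 0) {w : E}
    (h : trv l a b w = 0) : w = 0 := by
  rw [trv_apply] at h
  have h1 := congrArg l h
  simp only [map_add, map_smul, map_sub, smul_eq_mul, map_zero] at h1
  have h2 : l w * l a = 0 := by
    field_simp at h1
    linarith
  have h3 : l w = 0 := (mul_eq_zero.1 h2).resolve_right ha
  simpa [h3] using h

/-- transport of the slices of `F` along the curve `k` -/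
def slide (e : E) (m l : E →L[ℝ] ℝ) (k : ℝ → E) (σ : ℝ → ℝ) (F : E → E) (p : E) : E :=
  k (m p) + trv l (deriv k (m p)) (deriv k (σ (m p)))
    (F (p + (σ (m p) - m p) • e) - k (σ (m p)))

section slide

variable {e : E} {m l : E →L[ℝ] ℝ} {k : ℝ → E} {σ : ℝ → ℝ} {F : E → E} {I : Set ℝ}

theorem slide_of_fix {p : E} (h : σ (m p) = m p) : slide e m l k σ F p = F p := by
  simp [slide, h, trv_self]

theorem slide_axis (he : m e = 1) {u : ℝ} (hF : F (σ u • e) = k (σ u)) :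
    slide e m l k σ F (u • e) = k u := by
  simp [slide, he, ← add_smul, hF]

theorem contDiffAt_slide (hI : IsOpen I) (hk : ContDiffOn ℝ ∞ k I)
    (hl : ∀ u ∈ I, l (deriv k u) ≠ 0) (hσ : ContDiff ℝ ∞ σ) {p : E} (h1 : m p ∈ I)
    (h2 : σ (m p) ∈ I) (hF : ContDiffAt ℝ ∞ F (p + (σ (m p) - m p) • e)) :
    ContDiffAt ℝ ∞ (slide e m l k σ F) p := by
  have hm : ContDiffAt ℝ ∞ m p := m.contDiff.contDiffAt
  have hs : ContDiffAt ℝ ∞ (fun p => σ (m p)) p := hσ.contDiffAt.comp p hm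
  have hk' : ContDiffOn ℝ ∞ (deriv k) I := hk.deriv_of_isOpen hI (by simp)
  have a1 : ContDiffAt ℝ ∞ (fun p => k (m p)) p := (hk.contDiffAt (hI.mem_nhds h1)).comp p hm
  have a2 : ContDiffAt ℝ ∞ (fun p => k (σ (m p))) p := (hk.contDiffAt (hI.mem_nhds h2)).comp p hs
  have a3 : ContDiffAt ℝ ∞ (fun p => deriv k (m p)) p :=
    (hk'.contDiffAt (hI.mem_nhds h1)).comp p hm
  have a4 : ContDiffAt ℝ ∞ (fun p => deriv k (σ (m p))) p :=
    ContDiffAt.comp (g := deriv k) p (hk'.contDiffAt (hI.mem_nhds h2)) hs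
  have a5 : ContDiffAt ℝ ∞ (fun p => F (p + (σ (m p) - m p) • e) - k (σ (m p))) p :=
    (hF.comp p (contDiffAt_id.add ((hs.sub hm).smul contDiffAt_const))).sub a2
  have a6 : ContDiffAt ℝ ∞ (fun p => (l (deriv k (σ (m p))))⁻¹) p :=
    (l.contDiff.contDiffAt.comp p a4).inv (hl _ h2)
  have a7 := a1.add (a5.add ((a6.mul (l.contDiff.contDiffAt.comp p a5)).smul (a3.sub a4)))
  refine a7.congr_of_eventuallyEq (Filter.Eventually.of_forall fun q => ?_)
  simp only [slide, trv_apply, Function.comp_apply]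
  rfl

theorem fderiv_slide_inj (he : m e = 1) (hI : IsOpen I) (hk : ContDiffOn ℝ ∞ k I)
    (hl : ∀ u ∈ I, l (deriv k u) ≠ 0) (hσ : ContDiff ℝ ∞ σ) {u : ℝ} (h1 : u ∈ I)
    (h2 : σ u ∈ I) (hF : ContDiffAt ℝ ∞ F (σ u • e))
    (hFk : ∀ᶠ s in 𝓝 u, F (σ s • e) = k (σ s)) (hFe : fderiv ℝ F (σ u • e) e = deriv k (σ u))
    (hFi : Function.Injective (fderiv ℝ F (σ u • e))) :
    Function.Injective (fderiv ℝ (slide e m l k σ F) (u • e)) := by
  have hmu : m (u • e) = u := by simp [he]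
  have hd : DifferentiableAt ℝ (slide e m l k σ F) (u • e) :=
    (contDiffAt_slide (F := F) (e := e) hI hk hl hσ (by rwa [hmu]) (by rwa [hmu])
      (by rwa [hmu, ← add_smul, add_sub_cancel])).differentiableAt (by simp)
  set L := fderiv ℝ (slide e m l k σ F) (u • e) with hL
  set R := trv l (deriv k u) (deriv k (σ u)) with hR
  have hLe : L e = R (fderiv ℝ F (σ u • e) e) := by
    rw [hFe, hR, trv_base (hl _ h2)]
    have a1 : HasDerivAt (fun s : ℝ => s • e) e u := by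
      simpa using (hasDerivAt_id u).smul_const e
    have a2 := hd.hasFDerivAt.comp_hasDerivAt u a1
    have a3 : HasDerivAt k (deriv k u) u :=
      ((hk.contDiffAt (hI.mem_nhds h1)).differentiableAt (by simp)).hasDerivAt
    refine a2.unique (a3.congr_of_eventuallyEq ?_)
    filter_upwards [hFk] with s hs
    exact slide_axis he hs
  have hLv : ∀ v, m v = 0 → L v = R (fderiv ℝ F (σ u • e) v) := by
    intro v hv
    have a1 : ∀ p : E, HasDerivAt (fun s : ℝ => p + s • v) v 0 := fun p => by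
      simpa using ((hasDerivAt_id (0 : ℝ)).smul_const v).const_add p
    have a2 : HasFDerivAt (slide e m l k σ F) L (u • e + (0 : ℝ) • v) := by
      simpa using hd.hasFDerivAt
    have a3 : HasFDerivAt F (fderiv ℝ F (σ u • e)) (σ u • e + (0 : ℝ) • v) := by
      simpa using (hF.differentiableAt (by simp)).hasFDerivAt
    have a4 := (R.hasFDerivAt.comp_hasDerivAt (0 : ℝ)
      ((a3.comp_hasDerivAt (0 : ℝ) (a1 _)).sub_const (k (σ u)))).const_add (k u)
    refine (a2.comp_hasDerivAt (0 : ℝ) (a1 _)).unique (a4.congr_of_eventuallyEq ?_)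
    refine Filter.Eventually.of_forall fun s => ?_
    have b1 : m (u • e + s • v) = u := by simp [he, hv]
    have b2 : u • e + s • v + (σ u - u) • e = σ u • e + s • v := by
      rw [sub_smul]; abel
    simp only [Function.comp_apply, slide, b1, b2, hR]
  rw [injective_iff_map_eq_zero]
  intro w hw
  have h3 : w = m w • e + (w - m w • e) := by abel
  have h4 : L w = R (fderiv ℝ F (σ u • e) w) := by
    conv_lhs => rw [h3]
    conv_rhs => rw [h3]
    rw [map_add, map_add, map_add, map_smul, map_smul, map_smul, hLe,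
      hLv _ (by simp [he])]
  rw [h4] at hw
  exact (injective_iff_map_eq_zero _).1 hFi w (trv_inj (hl _ h1) (hl _ h2) hw)

end slide

variable {M : Type} [TopologicalSpace M] [ChartedSpace E M] [IsManifold 𝓘(ℝ, E) ∞ M]

theorem md_chart_comp {Ψ : E → M} {p : E} {a : M} (hΨ : MDifferentiableAt 𝓘(ℝ, E) 𝓘(ℝ, E) Ψ p)
    (ha : Ψ p ∈ (chartAt E a).source) (v : E) :
    fderiv ℝ (chartAt E a ∘ Ψ) p v = md E (chartAt E a) (Ψ p) (md E Ψ p v) := by
  have h1 := mfderiv_comp p (mdifferentiableAt_chart (E := E) a _ ha) hΨ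
  rw [mfderiv_eq_fderiv] at h1
  exact congrArg (fun L => L v) h1

theorem md_chart_inj {x a : M} (ha : x ∈ (chartAt E a).source) :
    Function.Injective (md E (chartAt E a) x) :=
  (injective_iff_map_eq_zero _).2 fun v hv => mfderiv_chart_injective a x ha v hv

theorem contDiffAt_chart_comp {Ψ : E → M} {p : E} {a : M}
    (hΨ : ContMDiffAt 𝓘(ℝ, E) 𝓘(ℝ, E) ∞ Ψ p) (ha : Ψ p ∈ (chartAt E a).source) :
    ContDiffAt ℝ ∞ (chartAt E a ∘ Ψ) p :=
  contMDiffAt_iff_contDiffAt.1 (((contMDiffOn_chart (I := 𝓘(ℝ, E)) (n := ∞) (x := a)).contMDiffAt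
    ((chartAt E a).open_source.mem_nhds ha)).comp p hΨ)

theorem md_inj_iff {Ψ : E → M} {p : E} {a : M} (hΨ : MDifferentiableAt 𝓘(ℝ, E) 𝓘(ℝ, E) Ψ p)
    (ha : Ψ p ∈ (chartAt E a).source) :
    Function.Injective (md E Ψ p) ↔ Function.Injective (fderiv ℝ (chartAt E a ∘ Ψ) p) := by
  have h1 : (fderiv ℝ (chartAt E a ∘ Ψ) p : E → E) = md E (chartAt E a) (Ψ p) ∘ md E Ψ p :=
    funext fun v => md_chart_comp hΨ ha v
  rw [h1]
  exact ((md_chart_inj ha).of_comp_iff _).symm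

theorem isOpen_md_inj {Ψ : E → M} {W : Set E} (hW : IsOpen W)
    (hΨ : ContMDiffOn 𝓘(ℝ, E) 𝓘(ℝ, E) ∞ Ψ W) :
    IsOpen {p | p ∈ W ∧ Function.Injective (md E Ψ p)} := by
  rw [isOpen_iff_mem_nhds]
  rintro p ⟨hp, hi⟩
  have h0 := hΨ.contMDiffAt (hW.mem_nhds hp)
  have hs := mem_chart_source E (Ψ p)
  have h1 := ((contDiffAt_chart_comp h0 hs).fderiv_right (m := 0) (by simp)).continuousAt
  have h2 := h1 (ContinuousLinearMap.isOpen_injective.mem_nhds
    ((md_inj_iff (h0.mdifferentiableAt (by simp)) hs).1 hi))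
  filter_upwards [hW.mem_nhds hp, h2,
    h0.continuousAt ((chartAt E (Ψ p)).open_source.mem_nhds hs)] with q hq hq2 hq3
  exact ⟨hq, (md_inj_iff ((hΨ.contMDiffAt (hW.mem_nhds hq)).mdifferentiableAt (by simp)) hq3).2 hq2⟩

theorem symm_comp_at {F : E → E} {p : E} {a : M} (hF : ContDiffAt ℝ ∞ F p)
    (ha : F p ∈ (chartAt E a).target) :
    ContMDiffAt 𝓘(ℝ, E) 𝓘(ℝ, E) ∞ ((chartAt E a).symm ∘ F) p :=
  ((contMDiffOn_chart_symm (I := 𝓘(ℝ, E)) (n := ∞) (x := a)).contMDiffAt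
    ((chartAt E a).open_target.mem_nhds ha)).comp p hF.contMDiffAt

theorem symm_comp_inj {F : E → E} {p : E} {a : M} (hF : ContDiffAt ℝ ∞ F p)
    (ha : F p ∈ (chartAt E a).target) (hi : Function.Injective (fderiv ℝ F p)) :
    Function.Injective (md E ((chartAt E a).symm ∘ F) p) := by
  rw [md_inj_iff (a := a) ((symm_comp_at hF ha).mdifferentiableAt (by simp))
    ((chartAt E a).map_target ha)]
  have h1 : (chartAt E a ∘ (chartAt E a).symm ∘ F) =ᶠ[𝓝 p] F := by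
    filter_upwards [hF.continuousAt ((chartAt E a).open_target.mem_nhds ha)] with q hq
    exact (chartAt E a).right_inv hq
  rwa [h1.fderiv_eq]

/-- the curve read in a chart: derivative -/
theorem deriv_cc_eq {γ : ℝ → M} {u : ℝ} {a : M} (hγ : MDifferentiableAt 𝓘(ℝ, ℝ) 𝓘(ℝ, E) γ u)
    (ha : γ u ∈ (chartAt E a).source) :
    deriv (cc (E := E) γ a) u = md E (chartAt E a) (γ u) (P216R.vel E γ u) := by
  have h1 := mfderiv_comp u (mdifferentiableAt_chart (E := E) a _ ha) hγ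
  rw [mfderiv_eq_fderiv] at h1
  exact congrArg (fun L => L 1) h1

theorem contDiffAt_cc {γ : ℝ → M} {u : ℝ} {a : M} (hγ : ContMDiffAt 𝓘(ℝ, ℝ) 𝓘(ℝ, E) ∞ γ u)
    (ha : γ u ∈ (chartAt E a).source) : ContDiffAt ℝ ∞ (cc (E := E) γ a) u :=
  contMDiffAt_iff_contDiffAt.1 (((contMDiffOn_chart (I := 𝓘(ℝ, E)) (n := ∞) (x := a)).contMDiffAt
    ((chartAt E a).open_source.mem_nhds ha)).comp u hγ)

/-- local data near one parameter -/
theorem exists_loc {γ : ℝ → M} {J : Set ℝ} (hJ : IsOpen J)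
    (hγ : ContMDiffOn 𝓘(ℝ, ℝ) 𝓘(ℝ, E) ∞ γ J) {s : ℝ} (hs : s ∈ J) (hv : P216R.vel E γ s ≠ 0) :
    ∃ δ > 0, ∃ l : E →L[ℝ] ℝ, l (deriv (cc (E := E) γ (γ s)) s) = 1 ∧
      ContDiffOn ℝ ∞ (cc (E := E) γ (γ s)) (Ioo (s - δ) (s + δ)) ∧
      ∀ u ∈ Ioo (s - δ) (s + δ), γ u ∈ (chartAt E (γ s)).source ∧
        l (deriv (cc (E := E) γ (γ s)) u) ≠ 0 := by
  have h0 := hγ.contMDiffAt (hJ.mem_nhds hs)
  have hsrc := mem_chart_source E (γ s)
  have hne : deriv (cc (E := E) γ (γ s)) s ≠ 0 := by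
    rw [deriv_cc_eq (h0.mdifferentiableAt (by simp)) hsrc]
    exact fun h => hv ((injective_iff_map_eq_zero _).1 (md_chart_inj hsrc) _ h)
  obtain ⟨l, hl⟩ := SeparatingDual.exists_eq_one (R := ℝ) hne
  have h1 : ContinuousAt (fun u => l (deriv (cc (E := E) γ (γ s)) u)) s := by
    have h2 := ((contDiffAt_cc h0 hsrc).fderiv_right (m := 0) (by simp)).continuousAt
    exact l.continuous.continuousAt.comp (h2.clm_apply (continuousAt_const (y := (1 : ℝ))))
  have h3 : ∀ᶠ u in 𝓝 s, u ∈ J ∧ γ u ∈ (chartAt E (γ s)).source ∧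
      l (deriv (cc (E := E) γ (γ s)) u) ≠ 0 := by
    filter_upwards [hJ.mem_nhds hs, h0.continuousAt ((chartAt E (γ s)).open_source.mem_nhds hsrc),
      h1.eventually_ne (y := 0) (by rw [hl]; exact one_ne_zero)] with u a b c using ⟨a, b, c⟩
  obtain ⟨δ, hδ, h4⟩ := Metric.eventually_nhds_iff_ball.1 h3
  rw [Real.ball_eq_Ioo] at h4
  exact ⟨δ, hδ, l, hl, fun u hu => (contDiffAt_cc (hγ.contMDiffAt (hJ.mem_nhds (h4 u hu).1))
    (h4 u hu).2.1).contDiffWithinAt, fun u hu => (h4 u hu).2⟩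

variable (E) in
/-- a tube along `γ` over `[a, s]` -/
def Tb (γ : ℝ → M) (e : E) (a s : ℝ) : Prop :=
  ∃ (Ψ : E → M) (W : Set E), IsOpen W ∧ ContMDiffOn 𝓘(ℝ, E) 𝓘(ℝ, E) ∞ Ψ W ∧
    (∀ u ∈ Icc a s, u • e ∈ W) ∧
    ∀ u : ℝ, u • e ∈ W → Ψ (u • e) = γ u ∧ Function.Injective (md E Ψ (u • e))

/-- the piece of tube obtained by sliding in a chart -/
theorem slide_piece {γ : ℝ → M} {b : M} {e : E} {m l : E →L[ℝ] ℝ} (he : m e = 1) {I I' : Set ℝ}
    (hI : IsOpen I) (hI' : IsOpen I') (hk : ContDiffOn ℝ ∞ (cc (E := E) γ b) I)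
    (hl : ∀ u ∈ I, γ u ∈ (chartAt E b).source ∧ l (deriv (cc (E := E) γ b) u) ≠ 0)
    {σ : ℝ → ℝ} (hσ : ContDiff ℝ ∞ σ) {F : E → E} {W : Set E} (hW : IsOpen W)
    (hF : ContDiffOn ℝ ∞ F W)
    (h1 : ∀ u ∈ I', u ∈ I ∧ σ u ∈ I ∧ σ u • e ∈ W ∧ F (σ u • e) = cc γ b (σ u) ∧
      fderiv ℝ F (σ u • e) e = deriv (cc (E := E) γ b) (σ u) ∧
      Function.Injective (fderiv ℝ F (σ u • e))) :
    ∃ W₂ : Set E, IsOpen W₂ ∧ (∀ p ∈ W₂, p + (σ (m p) - m p) • e ∈ W) ∧
      (∀ p ∈ W₂, ContMDiffAt 𝓘(ℝ, E) 𝓘(ℝ, E) ∞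
        ((chartAt E b).symm ∘ slide e m l (cc γ b) σ F) p) ∧
      (∀ u ∈ I', u • e ∈ W₂) ∧ ∀ u : ℝ, u • e ∈ W₂ →
        ((chartAt E b).symm ∘ slide e m l (cc γ b) σ F) (u • e) = γ u ∧
        Function.Injective (md E ((chartAt E b).symm ∘ slide e m l (cc γ b) σ F) (u • e)) := by
  have hmu : ∀ u : ℝ, m (u • e) = u := fun u => by simp [he]
  have hl' : ∀ u ∈ I, l (deriv (cc (E := E) γ b) u) ≠ 0 := fun u hu => (hl u hu).2
  have hsm : ∀ p, m p ∈ I' → p + (σ (m p) - m p) • e ∈ W →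
      ContDiffAt ℝ ∞ (slide e m l (cc γ b) σ F) p := fun p h2 h3 =>
    contDiffAt_slide hI hk hl' hσ (h1 _ h2).1 (h1 _ h2).2.1 (hF.contDiffAt (hW.mem_nhds h3))
  have hax : ∀ u ∈ I', slide e m l (cc γ b) σ F (u • e) = cc γ b u := fun u hu =>
    slide_axis he (h1 u hu).2.2.2.1
  refine ⟨{p | m p ∈ I' ∧ p + (σ (m p) - m p) • e ∈ W ∧
    slide e m l (cc γ b) σ F p ∈ (chartAt E b).target}, ?_, fun p hp => hp.2.1,
    fun p hp => symm_comp_at (hsm p hp.1 hp.2.1) hp.2.2, fun u hu => ⟨by rwa [hmu], ?_, ?_⟩,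
    fun u hu => ?_⟩
  · rw [isOpen_iff_mem_nhds]
    intro p hp
    have c1 : Continuous fun p => p + (σ (m p) - m p) • e := by
      have := hσ.continuous
      fun_prop
    filter_upwards [m.continuous.continuousAt (hI'.mem_nhds hp.1),
      c1.continuousAt (hW.mem_nhds hp.2.1),
      (hsm p hp.1 hp.2.1).continuousAt ((chartAt E b).open_target.mem_nhds hp.2.2)] with q a b c
      using ⟨a, b, c⟩
  · rw [hmu, ← add_smul, add_sub_cancel]
    exact (h1 u hu).2.2.1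
  · rw [hax u hu]
    exact (chartAt E b).map_source (hl u (h1 u hu).1).1
  · have hu' : u ∈ I' := by simpa only [hmu] using hu.1
    refine ⟨?_, symm_comp_inj (hsm _ hu.1 hu.2.1) hu.2.2 ?_⟩
    · rw [Function.comp_apply, hax u hu']
      exact (chartAt E b).left_inv (hl u (h1 u hu').1).1
    · obtain ⟨a1, a2, a3, a4, a5, a6⟩ := h1 u hu'
      refine fderiv_slide_inj he hI hk hl' hσ a1 a2 (hF.contDiffAt (hW.mem_nhds a3)) ?_ a5 a6
      filter_upwards [hI'.mem_nhds hu'] with s hs using (h1 s hs).2.2.2.1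

theorem tb_step {γ : ℝ → M} {b : M} {e : E} {m l : E →L[ℝ] ℝ} (he : m e = 1) {a s s₀ s₁ s' : ℝ}
    (hk : ContDiffOn ℝ ∞ (cc (E := E) γ b) (Ioo s₀ s₁))
    (hl : ∀ u ∈ Ioo s₀ s₁, γ u ∈ (chartAt E b).source ∧ l (deriv (cc (E := E) γ b) u) ≠ 0)
    (has : a ≤ s) (hs : s ∈ Ioo s₀ s₁) (hs' : s' < s₁) (h : Tb E γ e a s) : Tb E γ e a s' := by
  obtain ⟨Ψ, W, hW, hΨ, hax, hΨγ⟩ := h
  set W' := W ∩ Ψ ⁻¹' (chartAt E b).source with hW'
  have hW'o : IsOpen W' := hΨ.continuousOn.isOpen_inter_preimage hW (chartAt E b).open_source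
  have hse : s • e ∈ W := hax s ⟨has, le_rfl⟩
  have hse' : s • e ∈ W' := ⟨hse, by rw [mem_preimage, (hΨγ s hse).1]; exact (hl s hs).1⟩
  have hev : ∀ᶠ u in 𝓝 s, u ∈ Ioo s₀ s₁ ∧ u • e ∈ W' := by
    have c1 : Continuous fun u : ℝ => u • e := by fun_prop
    filter_upwards [isOpen_Ioo.mem_nhds hs, c1.continuousAt (hW'o.mem_nhds hse')] with u a b
      using ⟨a, b⟩
  obtain ⟨η, hη, hb⟩ := Metric.eventually_nhds_iff_ball.1 hev
  rw [Real.ball_eq_Ioo] at hb
  set σ : ℝ → ℝ := fun u => u - Real.smoothTransition ((u - s) / (η / 2)) * (u - s) with hσ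
  have hσs : ContDiff ℝ ∞ σ := by
    refine contDiff_id.sub ((Real.smoothTransition.contDiff.comp ?_).mul ?_) <;> fun_prop
  have hσ1 : ∀ u ≤ s, σ u = u := fun u hu => by
    simp only [hσ]
    rw [Real.smoothTransition.zero_of_nonpos (div_nonpos_of_nonpos_of_nonneg (by linarith)
      (by linarith))]
    ring
  have hσ2 : ∀ u, s - η < u → σ u ∈ Ioo (s - η) (s + η) := fun u hu => by
    rcases le_total u s with h1 | h1
    · rw [hσ1 u h1]; exact ⟨hu, by linarith⟩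
    · have t0 := Real.smoothTransition.nonneg ((u - s) / (η / 2))
      have t1 := Real.smoothTransition.le_one ((u - s) / (η / 2))
      rcases le_total (η / 2) (u - s) with h2 | h2
      · simp only [hσ]
        rw [Real.smoothTransition.one_of_one_le ((one_le_div (by linarith)).2 h2)]
        constructor <;> linarith
      · simp only [hσ]
        constructor <;> nlinarith
  have hFs : ContDiffOn ℝ ∞ (chartAt E b ∘ Ψ) W' := fun p hp =>
    (contDiffAt_chart_comp (hΨ.contMDiffAt (hW.mem_nhds hp.1)) hp.2).contDiffWithinAt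
  have hFk : ∀ u ∈ Ioo (s - η) (s + η), (chartAt E b ∘ Ψ) (u • e) = cc γ b u := fun u hu => by
    rw [Function.comp_apply, (hΨγ u (hb u hu).2.1).1]; rfl
  have hs₀ : s₀ ≤ s - η := by
    by_contra hc
    push Not at hc
    exact lt_irrefl _ (hb s₀ ⟨hc, by linarith [hs.1]⟩).1.1
  obtain ⟨W₂, hW₂, b1, b2, b3, b4⟩ := slide_piece (γ := γ) (b := b) (l := l) he isOpen_Ioo
    (isOpen_Ioo (a := s - η) (b := s₁)) hk hl hσs hW'o hFs (fun u hu => by
      have c1 := hσ2 u hu.1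
      have c2 := hb _ c1
      have c3 := (hΨ.contMDiffAt (hW.mem_nhds c2.2.1)).mdifferentiableAt (by simp)
      refine ⟨⟨by linarith [hu.1], hu.2⟩, c2.1, c2.2, hFk _ c1, ?_,
        (md_inj_iff c3 c2.2.2).1 (hΨγ _ c2.2.1).2⟩
      have a1 : HasDerivAt (fun s : ℝ => s • e) e (σ u) := by
        simpa using (hasDerivAt_id (σ u)).smul_const e
      have a2 := ((hFs.contDiffAt (hW'o.mem_nhds c2.2)).differentiableAt
        (by simp)).hasFDerivAt.comp_hasDerivAt (σ u) a1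
      refine a2.unique (((hk.contDiffAt (isOpen_Ioo.mem_nhds c2.1)).differentiableAt
        (by simp)).hasDerivAt.congr_of_eventuallyEq ?_)
      filter_upwards [isOpen_Ioo.mem_nhds c1] with r hr using hFk r hr)
  classical
  set Φ := (chartAt E b).symm ∘ slide e m l (cc γ b) σ (chartAt E b ∘ Ψ) with hΦ
  set Ψ₁ : E → M := fun p => if m p ≤ s then Ψ p else Φ p with hΨ₁
  have hW₁ : IsOpen (W ∩ {p | m p < s}) := hW.inter (isOpen_lt m.continuous continuous_const)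
  have e1 : ∀ p ∈ W ∩ {p | m p < s}, Ψ₁ =ᶠ[𝓝 p] Ψ := fun p hp => by
    filter_upwards [hW₁.mem_nhds hp] with q hq
    exact if_pos (le_of_lt hq.2)
  have e2 : ∀ p ∈ W₂, Ψ₁ =ᶠ[𝓝 p] Φ := fun p hp => by
    filter_upwards [hW₂.mem_nhds hp] with q hq
    by_cases hq' : m q ≤ s
    · have c1 := b1 q hq
      rw [hσ1 _ hq', sub_self, zero_smul, add_zero] at c1
      simp only [hΨ₁, if_pos hq', hΦ, Function.comp_apply, slide_of_fix (hσ1 _ hq')]
      exact ((chartAt E b).left_inv c1.2).symm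
    · exact if_neg hq'
  refine ⟨Ψ₁, (W ∩ {p | m p < s}) ∪ W₂, hW₁.union hW₂, fun p hp => ?_, fun u hu => ?_,
    fun u hu => ?_⟩
  · rcases hp with hp | hp
    · exact ((hΨ.contMDiffAt (hW.mem_nhds hp.1)).congr_of_eventuallyEq (e1 p hp)).contMDiffWithinAt
    · exact ((b2 p hp).congr_of_eventuallyEq (e2 p hp)).contMDiffWithinAt
  · rcases lt_or_ge u s with h1 | h1
    · exact Or.inl ⟨hax u ⟨hu.1, h1.le⟩, by simpa [he] using h1⟩
    · exact Or.inr (b3 u ⟨by linarith, by linarith [hu.2]⟩)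
  · rcases hu with hu | hu
    · rw [(e1 _ hu).self_of_nhds, md, (e1 _ hu).mfderiv_eq]
      exact hΨγ u hu.1
    · rw [(e2 _ hu).self_of_nhds, md, (e2 _ hu).mfderiv_eq]
      exact b4 u hu

/-- TUBE CHART: an immersed curve is the image of a straight segment under a local
diffeomorphism from an open subset of the model space -/
theorem exists_tube_chart {γ : ℝ → M} {J : Set ℝ} (hJ : IsOpen J)
    (hγ : ContMDiffOn 𝓘(ℝ, ℝ) 𝓘(ℝ, E) ∞ γ J) {a b : ℝ} (hab : a ≤ b) (hsub : Icc a b ⊆ J)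
    (hv : ∀ u ∈ Icc a b, P216R.vel E γ u ≠ 0) {U : Set M} (hU : IsOpen U)
    (hγU : MapsTo γ (Icc a b) U) :
    ∃ (e : E) (Ψ : E → M) (W : Set E), LD E Ψ W ∧ MapsTo Ψ W U ∧ (∀ u ∈ Icc a b, u • e ∈ W) ∧
      ∀ u : ℝ, u • e ∈ W → Ψ (u • e) = γ u := by
  have ha : a ∈ Icc a b := ⟨le_rfl, hab⟩
  obtain ⟨δ, hδ, m, hm, hk, hl⟩ := exists_loc hJ hγ (hsub ha) (hv a ha)
  set e := deriv (cc (E := E) γ (γ a)) a with he
  have hbase : Tb E γ e a a := by
    have haI : a ∈ Ioo (a - δ) (a + δ) := ⟨by linarith, by linarith⟩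
    have hF : ∀ p, HasFDerivAt (fun p : E => cc γ (γ a) a + (p - a • e))
        (ContinuousLinearMap.id ℝ E) p := fun p => ((hasFDerivAt_id p).sub_const _).const_add _
    obtain ⟨W₂, hW₂, -, b2, b3, b4⟩ := slide_piece (γ := γ) (b := γ a) (l := m) hm isOpen_Ioo
      isOpen_Ioo hk hl (σ := fun _ => a) contDiff_const (F := fun p => cc γ (γ a) a + (p - a • e))
      isOpen_univ (by fun_prop) (fun u hu => ⟨hu, haI, mem_univ _, by simp,
        by rw [(hF _).fderiv]; rfl, by rw [(hF _).fderiv]; exact Function.injective_id⟩)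
    refine ⟨_, W₂, hW₂, fun p hp => (b2 p hp).contMDiffWithinAt, fun u hu => b3 u ?_, b4⟩
    rwa [le_antisymm hu.2 hu.1]
  have hall : Tb E γ e a b := by
    set S := {s | s ∈ Icc a b ∧ Tb E γ e a s} with hS
    have hne : S.Nonempty := ⟨a, ha, hbase⟩
    have hbd : BddAbove S := ⟨b, fun s hs => hs.1.2⟩
    have hm' : sSup S ∈ Icc a b := ⟨le_csSup hbd ⟨ha, hbase⟩, csSup_le hne fun s hs => hs.1.2⟩
    obtain ⟨δ', hδ', l, -, hk', hl'⟩ := exists_loc hJ hγ (hsub hm') (hv _ hm')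
    obtain ⟨s, hs, hs'⟩ := exists_lt_of_lt_csSup hne (show sSup S - δ' < sSup S by linarith)
    have hs2 := le_csSup hbd hs
    have hstep : ∀ s' < sSup S + δ', Tb E γ e a s' := fun s' h =>
      tb_step hm hk' hl' hs.1.1 ⟨hs', by linarith⟩ h hs.2
    by_cases hb : b < sSup S + δ'
    · exact hstep b hb
    · have h1 : sSup S + δ' / 2 ∈ S :=
        ⟨⟨by linarith [hm'.1], by linarith⟩, hstep _ (by linarith)⟩
      linarith [le_csSup hbd h1]
  obtain ⟨Ψ, W, hW, hΨ, hax, hΨγ⟩ := hall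
  have hW₁ := isOpen_md_inj hW hΨ
  have hW₂ := hΨ.continuousOn.isOpen_inter_preimage hW hU
  refine ⟨e, Ψ, {p | p ∈ W ∧ Function.Injective (md E Ψ p)} ∩ (W ∩ Ψ ⁻¹' U),
    ⟨hW₁.inter hW₂, hΨ.mono fun p hp => hp.1.1, fun p hp => hp.1.2⟩, fun p hp => hp.2.2,
    fun u hu => ⟨⟨hax u hu, (hΨγ u (hax u hu)).2⟩, hax u hu, ?_⟩, fun u hu => (hΨγ u hu.1.1).1⟩
  rw [mem_preimage, (hΨγ u (hax u hu)).1]
  exact hγU hu

end Vale.Agent.P216L
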