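import Vale.Agent.P216L.SegT
import Vale.Agent.P216L.Tube
import Vale.Agent.P216R.Nat
import Vale.Agent.P216BF.Time

/-!
# P216L: upper support functions of the distance, for families of metrics
-/

open scoped Manifold ContDiff Topology
open Set MeasureTheory Module Filter

set_option maxSynthPendingDepth 3
set_option linter.unusedSectionVars false

noncomputable section

namespace Vale.Agent.P216L

open Vale.Agent.P219.RG Vale.Agent.P216R Vale.Agent.P216BF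

variable {E : Type} [NormedAddCommGroup E] [NormedSpace ℝ E] [FiniteDimensional ℝ E]
  {M : Type} [TopologicalSpace M] [ChartedSpace E M] [IsManifold 𝓘(ℝ, E) ∞ M]

/-- geodesics are smooth -/
theorem geo_smooth {g : Ten E M} {U : Set M} (hg : Met g U) {γ : ℝ → M} {s : Set ℝ}
    (hs : IsOpen s) (hγ : Geo g γ s) (hm : MapsTo γ s U) :
    ContMDiffOn 𝓘(ℝ, ℝ) 𝓘(ℝ, E) ∞ γ s := by
  intro t ht
  refine ContMDiffAt.contMDiffWithinAt ?_
  have hs' : IsOpen (s ∩ γ ⁻¹' (chartAt E (γ t)).source) :=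
    hγ.cont.isOpen_inter_preimage hs (chartAt E (γ t)).open_source
  have h1 := contDiffOn_of_ode
    (y := fun u => (cc (E := E) γ (γ t) u, deriv (cc (E := E) γ (γ t)) u))
    (F := fun q => geoField (co g (γ t)) q.2) hs' (fun u hu => by
      obtain ⟨e1, e2, e3⟩ := hγ.eqn (γ t) u hu.1 hu.2
      have := e1.hasDerivAt.prodMk e2.hasDerivAt
      rw [e3] at this
      exact this) fun u hu => ContDiffAt.comp (g := geoField (co g (γ t))) _
        ((hg.isMetricOn (γ t)).contDiffAt_geoField (mem_dom hu.2 (hm hu.1))) contDiffAt_snd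
  have h2 := (h1.contDiffAt (hs'.mem_nhds ⟨ht, mem_chart_source E _⟩)).fst
  rw [contMDiffAt_iff]
  refine ⟨hγ.cont.continuousAt (hs.mem_nhds ht), ?_⟩
  simp only [modelWithCornersSelf_coe, range_id, contDiffWithinAt_univ]
  exact h2

/-- a unit speed geodesic is a straight segment in a local parametrisation -/
theorem exists_seg {g : Ten E M} {U : Set M} (hg : Met g U) {γ : ℝ → M} {L : ℝ} (hL : 0 < L)
    {J : Set ℝ} (hJ : IsOpen J) (hsub : Icc 0 L ⊆ J) (hγ : Geo g γ J) (hm : MapsTo γ J U)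
    (hu : ∀ t ∈ Icc 0 L, spd g γ t = 1) :
    ∃ (e : E) (Ψ : E → M) (W : Set E), LD E Ψ W ∧ MapsTo Ψ W U ∧ Seg (comap Ψ g) W e L ∧
      ∀ s ∈ Icc 0 L, Ψ (s • e) = γ s ∧ md E Ψ (s • e) e = P216R.vel E γ s := by
  obtain ⟨e, Ψ, W, hΨ, hW, hax, hΨγ⟩ := exists_tube_chart (E := E) hJ (geo_smooth hg hJ hγ hm) hL.le
    hsub (fun s hs h0 => by simpa [spd, h0] using hu s hs) hg.isOpen fun s hs => hm (hsub hs)
  have hc : Continuous fun s : ℝ => s • e := by fun_prop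
  have hev : ∀ s ∈ Icc 0 L, ∀ᶠ u in 𝓝 s, u • e ∈ W := fun s hs =>
    hc.continuousAt (hΨ.isOpen.mem_nhds (hax s hs))
  have hv : ∀ s ∈ Icc 0 L, md E Ψ (s • e) e = P216R.vel E γ s := fun s hs => by
    have h1 : (Ψ ∘ fun s : ℝ => s • e) =ᶠ[𝓝 s] γ := (hev s hs).mono hΨγ
    rw [← vel_congr h1, vel_map (γ := fun s : ℝ => s • e) (hΨ.md (hax s hs))
      (hasDerivAt_ray e s).differentiableAt.mdifferentiableAt, vel_model, (hasDerivAt_ray e s).deriv]
  refine ⟨e, Ψ, W, hΨ, hW, ⟨hg.isMetricOn_comap hΨ hW, hL, hax, fun s hs => ?_, fun s hs => ?_⟩,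
    fun s hs => ⟨hΨγ s (hax s hs), hv s hs⟩⟩
  · rw [comap_apply, hv s hs, hΨγ s (hax s hs)]
    exact Real.sqrt_eq_one.1 (hu s hs)
  · have hb : Ψ (s • e) ∈ (chartAt E (γ s)).source := by
      rw [hΨγ s (hax s hs)]; exact mem_chart_source E _
    have iso : Iso (comap Ψ g) (co g (γ s)) (chartAt E (γ s) ∘ Ψ) (s • e) := by
      have a1 := (li_comap hg hΨ (hax s hs) (hW (hax s hs))).iso_chart (a := s • e)
        (mem_chart_source E _) hb
      rw [co_model] at a1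
      exact a1
    set τ := chartAt E (γ s) ∘ Ψ with hτ
    have e0 : (fun u : ℝ => τ (u • e)) =ᶠ[𝓝 s] cc γ (γ s) :=
      (hev s hs).mono fun u h => congrArg (chartAt E (γ s)) (hΨγ u h)
    have e1 : deriv (cc (E := E) γ (γ s)) =ᶠ[𝓝 s] fun u => fderiv ℝ τ (u • e) e := by
      filter_upwards [e0.eventually_nhds, hc.continuousAt.eventually iso.smooth] with u h1 h2
      rw [← EventuallyEq.deriv_eq h1]
      exact ((h2.differentiableAt (by simp)).hasFDerivAt.comp_hasDerivAt u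
        (hasDerivAt_ray e u)).deriv
    have e2 : deriv (deriv (cc (E := E) γ (γ s))) s = fderiv ℝ (fderiv ℝ τ) (s • e) e e := by
      rw [e1.deriv_eq]
      have h1 := (((iso.cd.fderiv_right (m := ∞) (by simp)).differentiableAt
        (by simp)).hasFDerivAt.comp_hasDerivAt s (hasDerivAt_ray e s)).clm_apply
        (hasDerivAt_const s e)
      simpa using h1.deriv
    have e3 := (hγ.eqn (γ s) s (hsub hs) (mem_chart_source E _)).2.2
    rw [e2, e1.self_of_nhds, ← e0.self_of_nhds] at e3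
    rw [chrisB_apply]
    refine iso.inj ?_
    rw [iso.chris, e3, map_zero, add_neg_cancel]

/-- `f s` is an upper support function at `x` of the distance from `x₀`, touching at the time `t` -/
structure SupT (g : ℝ → Ten E M) (I : Set ℝ) (U : Set M) (x₀ x : M) (t : ℝ) (f : ℝ → M → ℝ) :
    Prop where
  ps : PS (fun s => rd E (f s) x) I t (pt E x)
  eq : ed (g t) U x₀ x = ENNReal.ofReal (f t x)
  nonneg : ∀ s y, 0 ≤ f s y
  le : ∀ᶠ y in 𝓝 x, ∀ s ∈ I, ed (g s) U x₀ y ≤ ENNReal.ofReal (f s y)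

/-- SUPPORT FUNCTIONS along a unit speed geodesic, with the profile `α` -/
theorem support' {g : ℝ → Ten E M} {I : Set ℝ} {U : Set M} (hg : Fam g I U) (hI : Convex ℝ I)
    (hI' : UniqueDiffOn ℝ I) {t : ℝ} (ht : t ∈ I) {γ : ℝ → M} {L : ℝ} (hL : 0 < L)
    {J : Set ℝ} (hJ : IsOpen J) (hsub : Icc 0 L ⊆ J) (hγ : Geo (g t) γ J) (hm : MapsTo γ J U)
    (hu : ∀ s ∈ Icc 0 L, spd (g t) γ s = 1) {α : ℝ → ℝ} (hα : ContDiff ℝ ∞ α) (h0 : α 0 = 0)
    (h1 : α L = 1) : ∃ f : ℝ → M → ℝ, PS (fun s => rd E (f s) (γ L)) I t (pt E (γ L)) ∧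
      f t (γ L) = L ∧ (∀ s y, 0 ≤ f s y) ∧
      (∀ᶠ y in 𝓝 (γ L), ∀ s ∈ I, ed (g s) U (γ 0) y ≤ ENNReal.ofReal (f s y)) ∧
      grad (g t) (f t) (γ L) = P216R.vel E γ L ∧
      lap (g t) (f t) (γ L) = ∫ s in (0 : ℝ)..L, (((finrank ℝ E : ℝ) - 1) * deriv α s ^ 2
        - α s ^ 2 * Ric (g t) (γ s) (P216R.vel E γ s) (P216R.vel E γ s)) ∧
      (∀ κ : ℝ → ℝ, ContinuousOn κ (Icc 0 L) → (∀ s ∈ Icc 0 L, SecGe (g t) (γ s) (κ s)) → ∀ v,
        hess (g t) (f t) (γ L) v v ≤ (g t (γ L) v v - g t (γ L) v (P216R.vel E γ L) ^ 2) *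
          ∫ s in (0 : ℝ)..L, (deriv α s ^ 2 - κ s * α s ^ 2)) ∧
      ∀ k : ℝ → ℝ, (∀ s ∈ Icc 0 L, HasDerivWithinAt
        (fun r => g r (γ s) (P216R.vel E γ s) (P216R.vel E γ s)) (k s) I t) →
        HasDerivWithinAt (fun r => f r (γ L)) ((∫ s in (0 : ℝ)..L, k s) / 2) I t := by
  obtain ⟨e, Ψ, W, hΨ, hW, h, hax⟩ := exists_seg (hg.met ht) hL hJ hsub hγ hm hu
  obtain ⟨J', P, p⟩ := h.exists_par
  have hx := h.mem L h.last
  obtain ⟨k, k1, k2, k3⟩ := exists_inv (hΨ.sm hx) (hΨ.inj _ hx)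
  have hG := hg.contDiffOn (fun y hy => hΨ.sm hy) hW
  have hk : k (Ψ (L • e)) = L • e := k2.self_of_nhds
  have H : ∀ s ∈ Icc 0 L, LI (comap Ψ (g t)) (g t) Ψ (s • e) := fun s hs =>
    li_comap (hg.met ht) hΨ (h.mem s hs) (hW (h.mem s hs))
  set F : ℝ → E → ℝ := fun s => sF (comap Ψ (g s)) (comap Ψ (g t)) e L P α with hF
  have hκ : ContDiffAt ℝ ∞ (k ∘ (chartAt E (Ψ (L • e))).symm) (pt E (Ψ (L • e))) :=
    (ContMDiffAt.comp _ (by rwa [symm_pt]) (sm_symm (pt_mem _))).contDiffAt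
  have hps : PS (fun s => rd E (F s ∘ k) (Ψ (L • e))) I t (pt E (Ψ (L • e))) := by
    have a1 := h.ps (Gt := fun s => comap Ψ (g s)) p hα hI hI' hG ht
    refine ContDiffWithinAt.comp (g := fun q : ℝ × E => F q.1 q.2) (t := I ×ˢ univ)
      (f := fun q : ℝ × E => (q.1, (k ∘ (chartAt E (Ψ (L • e))).symm) q.2)) _ ?_
      (contDiffAt_fst.prodMk (ContDiffAt.comp (g := k ∘ (chartAt E (Ψ (L • e))).symm)
        (f := Prod.snd) _ hκ contDiffAt_snd)).contDiffWithinAt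
      fun q hq => mk_mem_prod hq.1 (mem_univ _)
    simpa only [Function.comp_apply, symm_pt, hk] using a1
  have hcd := hps.contDiffAt ht
  have he : ((F t ∘ k) ∘ Ψ) =ᶠ[𝓝 (L • e)] F t := k2.mono fun z hz => congrArg (F t) hz
  rw [← (hax L h.last).1, ← (hax L h.last).2, ← (hax 0 ⟨le_rfl, hL.le⟩).1, zero_smul]
  refine ⟨fun s => F s ∘ k, hps, ?_, fun s y => Real.sqrt_nonneg _, ?_, ?_, ?_,
    fun κ hκ hs v => ?_, fun k' hk' => ?_⟩
  · simp only [Function.comp_apply, hk]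
    exact (h.support p hα h0 h1).2.1
  · have a1 : Tendsto k (𝓝 (Ψ (L • e))) (𝓝 (L • e)) := by
      simpa only [ContinuousAt, hk] using k1.continuousAt
    filter_upwards [k3, a1.eventually (h.ed_le p hα h0 h1)] with y y1 y2 s hs
    have a2 := ed_map_le (g := g s) (h := comap Ψ (g s)) hΨ.isOpen
      (hΨ.smooth.of_le (by exact_mod_cast le_top)) hW one_pos (fun _ _ _ => by simp) 0 (k y)
    rw [y1, ENNReal.ofReal_one, one_mul] at a2
    exact a2.trans (y2 _ ((hg.met hs).isMetricOn_comap hΨ hW))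
  · rw [← (H L h.last).grad (hcd.differentiableAt (by simp)), grad_congr rfl he, grad_model,
      h.grad p hα h0 h1]
  · rw [← (H L h.last).lap (hcd.of_le two_le_infty), lap_congr EventuallyEq.rfl he, lap_model,
      h.lap p hα h0 h1]
    refine intervalIntegral.integral_congr fun s hs => ?_
    rw [uIcc_of_le hL.le] at hs
    simp only [← Ric_model, (H s hs).Ric, comap_apply, (hax s hs).1, (hax s hs).2]
  · obtain ⟨w, rfl⟩ := (H L h.last).surj v
    rw [← comap_apply, ← (H L h.last).hess (hcd.of_le two_le_infty),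
      hess_congr EventuallyEq.rfl he, hess_model, ← comap_apply, ← comap_apply,
      (h.pd h.last).symm w e]
    exact h.hess_le p hα h0 h1 hκ (fun s hs' => ((H s hs').SecGe _).2
      ((hax s hs').1 ▸ hs s hs')) w
  · simp only [Function.comp_apply, hk]
    refine h.hasDerivWithinAt (Gt := fun s => comap Ψ (g s)) p hα hI hI' hG ht fun s hs => ?_
    simpa only [comap_apply, (hax s hs).1, (hax s hs).2] using hk' s hs

theorem MinGeo.ed_eq {g : Ten E M} {U : Set M} {γ : ℝ → M} {L : ℝ} (hγ : MinGeo g U γ L) :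
    ed g U (γ 0) (γ L) = ENNReal.ofReal L := by
  rw [hγ.min 0 ⟨le_rfl, hγ.nonneg⟩ L ⟨hγ.nonneg, le_rfl⟩, zero_sub, abs_neg, abs_of_nonneg hγ.nonneg]

/-- SUPPORT FUNCTIONS for a Ricci flow, along a minimising geodesic at the time `t` -/
theorem support {g : ℝ → Ten E M} {I : Set ℝ} {U : Set M} (hg : RF g I U) (hI : Convex ℝ I)
    (hI' : UniqueDiffOn ℝ I) {t : ℝ} (ht : t ∈ I) {γ : ℝ → M} {L : ℝ} (hγ : MinGeo (g t) U γ L)
    (hL : 0 < L) {α : ℝ → ℝ} (hα : ContDiff ℝ ∞ α) (h0 : α 0 = 0) (h1 : α L = 1) :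
    ∃ f : ℝ → M → ℝ, SupT g I U (γ 0) (γ L) t f ∧ f t (γ L) = L ∧
      grad (g t) (f t) (γ L) = P216R.vel E γ L ∧
      lap (g t) (f t) (γ L) = ∫ s in (0 : ℝ)..L, (((finrank ℝ E : ℝ) - 1) * deriv α s ^ 2
        - α s ^ 2 * Ric (g t) (γ s) (P216R.vel E γ s) (P216R.vel E γ s)) ∧
      HasDerivWithinAt (fun r => f r (γ L))
        (-∫ s in (0 : ℝ)..L, Ric (g t) (γ s) (P216R.vel E γ s) (P216R.vel E γ s)) I t := by
  obtain ⟨ε, hε, h2, h3⟩ := hγ.geo
  have hsub : Icc 0 L ⊆ Ioo (-ε) (L + ε) := fun s hs => ⟨by linarith [hs.1], by linarith [hs.2]⟩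
  obtain ⟨f, f1, f2, f3, f4, f5, f6, -, f8⟩ := support' hg.toFam hI hI' ht hL isOpen_Ioo hsub h2 h3
    hγ.unit hα h0 h1
  refine ⟨f, ⟨f1, by rw [f2, MinGeo.ed_eq hγ], f3, f4⟩, f2, f5, f6, ?_⟩
  refine (f8 _ fun s hs => rf_deriv hg ht (h3 (hsub hs)) _ _).congr_deriv ?_
  rw [intervalIntegral.integral_const_mul]
  ring

end Vale.Agent.P216L
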