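import Vale.Agent.P267.H993.Par
import Mathlib.Analysis.Calculus.FDeriv.CompCLM
import Mathlib.Analysis.Calculus.Deriv.Comp
import Mathlib.Analysis.Calculus.Deriv.Prod
import Mathlib.Topology.Compactness.Compact

/-!
# P216L: first and second derivatives of parameter integrals over `[0, 1]`
-/

open scoped ContDiff Topology
open Set MeasureTheory

set_option linter.unusedSectionVars false

noncomputable section

namespace Vale.Agent.P216L

open Vale.Agent.P267.H993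

variable {Q : Type} [NormedAddCommGroup Q] [NormedSpace ℝ Q] [FiniteDimensional ℝ Q]
variable {Ω : Set (ℝ × Q)} {f : ℝ × Q → ℝ} {q : Q}

theorem exists_tube (hΩ : IsOpen Ω) (hq : ∀ u ∈ Icc (0 : ℝ) 1, (u, q) ∈ Ω) :
    ∃ O : Set Q, IsOpen O ∧ q ∈ O ∧ ∀ u ∈ Icc (0 : ℝ) 1, ∀ y ∈ O, (u, y) ∈ Ω := by
  obtain ⟨U, O, -, hO, hU1, hO1, hsub⟩ := generalized_tube_lemma (isCompact_Icc (a := (0 : ℝ)) (b := 1))
    (isCompact_singleton (x := q)) hΩ (by
      rintro ⟨u, y⟩ ⟨hu, hy⟩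
      simp only [mem_singleton_iff] at hy
      subst hy
      exact hq u hu)
  exact ⟨O, hO, hO1 rfl, fun u hu y hy => hsub ⟨hU1 hu, hy⟩⟩

theorem eventually_tube (hΩ : IsOpen Ω) (hq : ∀ u ∈ Icc (0 : ℝ) 1, (u, q) ∈ Ω) :
    ∀ᶠ y in 𝓝 q, ∀ u ∈ Icc (0 : ℝ) 1, (u, y) ∈ Ω := by
  obtain ⟨O, hO, hqO, h⟩ := exists_tube hΩ hq
  filter_upwards [hO.mem_nhds hqO] with y hy u hu using h u hu y hy

theorem contDiffAt_par (hΩ : IsOpen Ω) (hq : ∀ u ∈ Icc (0 : ℝ) 1, (u, q) ∈ Ω)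
    (hf : ContDiffOn ℝ ∞ f Ω) : ContDiffAt ℝ ∞ (fun y => ∫ u in (0 : ℝ)..1, f (u, y)) q := by
  obtain ⟨O, hO, hqO, h⟩ := exists_tube hΩ hq
  exact (contDiffOn_param hΩ hO h hf).contDiffAt (hO.mem_nhds hqO)

theorem continuousOn_slice {B : Type} [TopologicalSpace B] {g : ℝ × Q → B}
    (hq : ∀ u ∈ Icc (0 : ℝ) 1, (u, q) ∈ Ω) (hg : ContinuousOn g Ω) :
    ContinuousOn (fun u => g (u, q)) (uIcc 0 1) := by
  rw [uIcc_of_le zero_le_one]
  exact hg.comp (Continuous.prodMk_left q).continuousOn fun u hu => hq u hu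

theorem fderiv_par (hΩ : IsOpen Ω) (hq : ∀ u ∈ Icc (0 : ℝ) 1, (u, q) ∈ Ω)
    (hf : ContDiffOn ℝ ∞ f Ω) (w : Q) :
    fderiv ℝ (fun y => ∫ u in (0 : ℝ)..1, f (u, y)) q w
      = ∫ u in (0 : ℝ)..1, fderiv ℝ f (u, q) (0, w) := by
  obtain ⟨O, hO, hqO, h⟩ := exists_tube hΩ hq
  rw [(hasFDerivAt_param hΩ hO h (hf.of_le (by norm_cast)) hqO).fderiv]
  have h1 : ContinuousOn (fun p => (fderiv ℝ f p).comp (ContinuousLinearMap.inr ℝ ℝ Q)) Ω :=
    ((hf.fderiv_of_isOpen hΩ (m := ∞) (by simp)).clm_comp contDiffOn_const).continuousOn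
  rw [ContinuousLinearMap.intervalIntegral_apply (continuousOn_slice hq h1).intervalIntegrable]
  simp

theorem fderiv_line {B : Type} [NormedAddCommGroup B] [NormedSpace ℝ B] {g : ℝ × Q → B} {u : ℝ}
    {w : Q} {s : ℝ} (hg : DifferentiableAt ℝ g (u, q + s • w)) :
    HasDerivAt (fun s : ℝ => g (u, q + s • w)) (fderiv ℝ g (u, q + s • w) (0, w)) s := by
  have h1 : HasDerivAt (fun s : ℝ => ((u, q + s • w) : ℝ × Q)) (0, w) s := by
    refine (hasDerivAt_const s u).prodMk ?_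
    simpa using ((hasDerivAt_id s).smul_const w).const_add q
  exact hg.hasFDerivAt.comp_hasDerivAt s h1

/-- first derivative of a parameter integral from derivatives along a line -/
theorem fderiv_par_line (hΩ : IsOpen Ω) (hq : ∀ u ∈ Icc (0 : ℝ) 1, (u, q) ∈ Ω)
    (hf : ContDiffOn ℝ ∞ f Ω) (w : Q) {k : ℝ → ℝ}
    (hk : ∀ u ∈ Icc (0 : ℝ) 1, HasDerivAt (fun s : ℝ => f (u, q + s • w)) (k u) 0) :
    fderiv ℝ (fun y => ∫ u in (0 : ℝ)..1, f (u, y)) q w = ∫ u in (0 : ℝ)..1, k u := by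
  rw [fderiv_par hΩ hq hf]
  refine intervalIntegral.integral_congr fun u hu => ?_
  rw [uIcc_of_le zero_le_one] at hu
  have h1 : DifferentiableAt ℝ f (u, q + (0 : ℝ) • w) := by
    simpa using (hf.contDiffAt (hΩ.mem_nhds (hq u hu))).differentiableAt (by simp)
  have h2 := (fderiv_line h1).unique (hk u hu)
  simpa using h2

/-- second derivative of a parameter integral from derivatives along a line -/
theorem fderiv2_par_line (hΩ : IsOpen Ω) (hq : ∀ u ∈ Icc (0 : ℝ) 1, (u, q) ∈ Ω)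
    (hf : ContDiffOn ℝ ∞ f Ω) (w : Q) {k : ℝ → ℝ → ℝ} {k₂ : ℝ → ℝ}
    (hk : ∀ u s, (u, q + s • w) ∈ Ω → HasDerivAt (fun s : ℝ => f (u, q + s • w)) (k u s) s)
    (hk₂ : ∀ u ∈ Icc (0 : ℝ) 1, HasDerivAt (k u) (k₂ u) 0) :
    fderiv ℝ (fderiv ℝ (fun y => ∫ u in (0 : ℝ)..1, f (u, y))) q w w
      = ∫ u in (0 : ℝ)..1, k₂ u := by
  have hI := contDiffAt_par hΩ hq hf
  have hd : DifferentiableAt ℝ (fderiv ℝ (fun y => ∫ u in (0 : ℝ)..1, f (u, y))) q :=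
    (hI.fderiv_right (m := 1) (by norm_cast)).differentiableAt (by simp)
  have e1 : fderiv ℝ (fderiv ℝ (fun y => ∫ u in (0 : ℝ)..1, f (u, y))) q w w
      = fderiv ℝ (fun z => fderiv ℝ (fun y => ∫ u in (0 : ℝ)..1, f (u, y)) z w) q w := by
    rw [(hd.hasFDerivAt.clm_apply (hasFDerivAt_const w q)).fderiv]
    simp
  have e2 : (fun z => fderiv ℝ (fun y => ∫ u in (0 : ℝ)..1, f (u, y)) z w) =ᶠ[𝓝 q]
      fun z => ∫ u in (0 : ℝ)..1, (fun p => fderiv ℝ f p (0, w)) (u, z) := by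
    filter_upwards [eventually_tube hΩ hq] with z hz
    exact fderiv_par hΩ hz hf w
  have hf1 : ContDiffOn ℝ ∞ (fun p => fderiv ℝ f p (0, w)) Ω :=
    (hf.fderiv_of_isOpen hΩ (m := ∞) (by simp)).clm_apply contDiffOn_const
  rw [e1, e2.fderiv_eq]
  refine fderiv_par_line hΩ hq hf1 w fun u hu => ?_
  refine (hk₂ u hu).congr_of_eventuallyEq ?_
  have hc : ContinuousAt (fun s : ℝ => ((u, q + s • w) : ℝ × Q)) 0 := by fun_prop
  have hm : Ω ∈ 𝓝 ((fun s : ℝ => ((u, q + s • w) : ℝ × Q)) 0) := by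
    simpa using hΩ.mem_nhds (hq u hu)
  filter_upwards [hc hm] with s hs
  have hs' : (u, q + s • w) ∈ Ω := hs
  have h1 : DifferentiableAt ℝ f (u, q + s • w) :=
    (hf.contDiffAt (hΩ.mem_nhds hs')).differentiableAt (by simp)
  exact (fderiv_line h1).unique (hk u s hs')

end Vale.Agent.P216L
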