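import Vale.Agent.P216L.SV
import Vale.Agent.P216L.Par

/-!
# P216L: the energy of a linear variation, first and second variation formulas
-/

open scoped ContDiff Topology
open Set MeasureTheory

set_option maxSynthPendingDepth 3
set_option linter.unusedSectionVars false

noncomputable section

namespace Vale.Agent.P216L

open Vale.Agent.P219.RG

variable {E : Type} [NormedAddCommGroup E] [NormedSpace ℝ E] [FiniteDimensional ℝ E]
variable {P : Type} [NormedAddCommGroup P] [NormedSpace ℝ P] [FiniteDimensional ℝ P]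

/-- a smooth curve and a smooth family of variation fields near `[0, 1]` -/
structure Var (J : Set ℝ) (c : ℝ → E) (A : ℝ → P →L[ℝ] E) : Prop where
  isOpen : IsOpen J
  sub : Icc 0 1 ⊆ J
  hc : ContDiffOn ℝ ∞ c J
  hA : ContDiffOn ℝ ∞ A J

/-- energy density of the varied curve `u ↦ c u + A u w` -/
def dens (G : E → E →L[ℝ] E →L[ℝ] ℝ) (c : ℝ → E) (A : ℝ → P →L[ℝ] E) (q : ℝ × P) : ℝ :=
  G (c q.1 + A q.1 q.2) (deriv c q.1 + deriv A q.1 q.2) (deriv c q.1 + deriv A q.1 q.2)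

/-- energy of the varied curve on `[0, 1]` -/
def en (G : E → E →L[ℝ] E →L[ℝ] ℝ) (c : ℝ → E) (A : ℝ → P →L[ℝ] E) (w : P) : ℝ :=
  ∫ u in (0 : ℝ)..1, dens G c A (u, w)

/-- integrand of the index form -/
def idn (G : E → E →L[ℝ] E →L[ℝ] ℝ) (c V : ℝ → E) (u : ℝ) : ℝ :=
  G (c u) (covD G c V u) (covD G c V u)
    - G (c u) (curv G (c u) (V u) (deriv c u) (deriv c u)) (V u)

/-- index form on `[0, 1]` -/
def idx (G : E → E →L[ℝ] E →L[ℝ] ℝ) (c V : ℝ → E) : ℝ := ∫ u in (0 : ℝ)..1, idn G c V u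

variable {G : E → E →L[ℝ] E →L[ℝ] ℝ} {W : Set E} {J : Set ℝ} {c : ℝ → E}
  {A : ℝ → P →L[ℝ] E}

namespace Var

theorem hc' (v : Var J c A) : ContDiffOn ℝ ∞ (deriv c) J :=
  v.hc.deriv_of_isOpen v.isOpen (by simp)

theorem hA' (v : Var J c A) : ContDiffOn ℝ ∞ (deriv A) J :=
  v.hA.deriv_of_isOpen v.isOpen (by simp)

theorem at_c (v : Var J c A) {u : ℝ} (hu : u ∈ J) : ContDiffAt ℝ ∞ c u :=
  v.hc.contDiffAt (v.isOpen.mem_nhds hu)

theorem at_c' (v : Var J c A) {u : ℝ} (hu : u ∈ J) : ContDiffAt ℝ ∞ (deriv c) u :=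
  v.hc'.contDiffAt (v.isOpen.mem_nhds hu)

theorem at_A (v : Var J c A) {u : ℝ} (hu : u ∈ J) : ContDiffAt ℝ ∞ A u :=
  v.hA.contDiffAt (v.isOpen.mem_nhds hu)

theorem at_A' (v : Var J c A) {u : ℝ} (hu : u ∈ J) : ContDiffAt ℝ ∞ (deriv A) u :=
  v.hA'.contDiffAt (v.isOpen.mem_nhds hu)

theorem hd_c (v : Var J c A) {u : ℝ} (hu : u ∈ J) : HasDerivAt c (deriv c u) u :=
  ((v.at_c hu).differentiableAt (by simp)).hasDerivAt

theorem hd_c' (v : Var J c A) {u : ℝ} (hu : u ∈ J) :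
    HasDerivAt (deriv c) (deriv (deriv c) u) u :=
  ((v.at_c' hu).differentiableAt (by simp)).hasDerivAt

theorem hd_V (v : Var J c A) {u : ℝ} (hu : u ∈ J) (w : P) :
    HasDerivAt (fun u => A u w) (deriv A u w) u := by
  simpa using ((v.at_A hu).differentiableAt (by simp)).hasDerivAt.clm_apply (hasDerivAt_const u w)

/-- the varied curve -/
theorem hd_vr (v : Var J c A) {u : ℝ} (hu : u ∈ J) (w : P) :
    HasDerivAt (fun u => c u + A u w) (deriv c u + deriv A u w) u :=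
  (v.hd_c hu).add (v.hd_V hu w)

theorem at_F (v : Var J c A) {q : ℝ × P} (hq : q.1 ∈ J) :
    ContDiffAt ℝ ∞ (fun q : ℝ × P => c q.1 + A q.1 q.2) q :=
  ((v.at_c hq).comp q contDiffAt_fst).add
    (((v.at_A hq).comp q contDiffAt_fst).clm_apply contDiffAt_snd)

theorem at_F' (v : Var J c A) {q : ℝ × P} (hq : q.1 ∈ J) :
    ContDiffAt ℝ ∞ (fun q : ℝ × P => deriv c q.1 + deriv A q.1 q.2) q :=
  ((v.at_c' hq).comp q contDiffAt_fst).add
    (((v.at_A' hq).comp q contDiffAt_fst).clm_apply contDiffAt_snd)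

theorem isOpen_dom (v : Var J c A) (hW : IsOpen W) :
    IsOpen {q : ℝ × P | q.1 ∈ J ∧ c q.1 + A q.1 q.2 ∈ W} := by
  rw [isOpen_iff_mem_nhds]
  intro q hq
  exact Filter.inter_mem (continuousAt_fst (v.isOpen.mem_nhds hq.1))
    ((v.at_F hq.1).continuousAt (hW.mem_nhds hq.2))

theorem contDiffOn_dens (v : Var J c A) (h : IsMetricOn G W) :
    ContDiffOn ℝ ∞ (dens G c A) {q : ℝ × P | q.1 ∈ J ∧ c q.1 + A q.1 q.2 ∈ W} := by
  intro q hq
  refine ContDiffAt.contDiffWithinAt ?_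
  exact (((h.contDiffAt hq.2).comp q (v.at_F hq.1)).clm_apply (v.at_F' hq.1)).clm_apply
    (v.at_F' hq.1)

theorem axis (v : Var J c A) (hW : ∀ u ∈ Icc (0 : ℝ) 1, c u ∈ W) :
    ∀ u ∈ Icc (0 : ℝ) 1, (u, (0 : P)) ∈ {q : ℝ × P | q.1 ∈ J ∧ c q.1 + A q.1 q.2 ∈ W} :=
  fun u hu => ⟨v.sub hu, by simpa using hW u hu⟩

theorem contDiffAt_en (v : Var J c A) (h : IsMetricOn G W) (hW : ∀ u ∈ Icc (0 : ℝ) 1, c u ∈ W) :
    ContDiffAt ℝ ∞ (en G c A) 0 :=
  contDiffAt_par (v.isOpen_dom h.isOpen) (v.axis hW) (v.contDiffOn_dens h)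

theorem dens_line (w : P) (u : ℝ) :
    (fun s : ℝ => dens G c A (u, 0 + s • w)) = fun s : ℝ => G (c u + s • A u w)
      (deriv c u + s • deriv A u w) (deriv c u + s • deriv A u w) := by
  funext s
  simp [dens]

theorem covD_V (v : Var J c A) (h : IsMetricOn G W) {u : ℝ} (hu : u ∈ J) (hW : c u ∈ W) (w : P) :
    covD G c (fun u => A u w) u = deriv A u w + chrisB G (c u) (A u w) (deriv c u) := by
  rw [covD, (v.hd_V hu w).deriv, chrisB_apply, h.chris_symm hW]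

theorem at_V (v : Var J c A) {u : ℝ} (hu : u ∈ J) (w : P) : ContDiffAt ℝ ∞ (fun u => A u w) u :=
  (v.at_A hu).clm_apply contDiffAt_const

theorem at_V' (v : Var J c A) {u : ℝ} (hu : u ∈ J) (w : P) :
    ContDiffAt ℝ ∞ (fun u => deriv A u w) u :=
  (v.at_A' hu).clm_apply contDiffAt_const

/-- first variation of the energy of a geodesic -/
theorem fderiv_en (v : Var J c A) (h : IsMetricOn G W) (hW : ∀ u ∈ Icc (0 : ℝ) 1, c u ∈ W)
    (hg : ∀ u ∈ Icc (0 : ℝ) 1, covD G c (deriv c) u = 0) (w : P) :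
    fderiv ℝ (en G c A) 0 w
      = 2 * (G (c 1) (A 1 w) (deriv c 1) - G (c 0) (A 0 w) (deriv c 0)) := by
  have h1 : fderiv ℝ (en G c A) 0 w = ∫ u in (0 : ℝ)..1,
      2 * G (c u) (deriv A u w + chrisB G (c u) (A u w) (deriv c u)) (deriv c u) := by
    refine fderiv_par_line (v.isOpen_dom h.isOpen) (v.axis hW) (v.contDiffOn_dens h) w
      fun u hu => ?_
    rw [dens_line]
    simpa using dens_d1 h (c u) (deriv c u) (A u w) (deriv A u w) (s := 0)
      (by simpa using hW u hu)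
  rw [h1, intervalIntegral.integral_const_mul]
  congr 1
  refine intervalIntegral.integral_eq_sub_of_hasDerivAt
    (f := fun u => G (c u) (A u w) (deriv c u)) (fun u hu => ?_) ?_
  · rw [uIcc_of_le zero_le_one] at hu
    have hJ := v.sub hu
    have h2 := h.hasDerivAt_inner (c := c) (X := fun u => A u w) (Y := deriv c) (hW u hu)
      (v.hd_c hJ).differentiableAt (v.hd_V hJ w).differentiableAt (v.hd_c' hJ).differentiableAt
    rw [hg u hu, v.covD_V h hJ (hW u hu)] at h2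
    simpa using h2
  · refine ContinuousOn.intervalIntegrable fun u hu => ?_
    rw [uIcc_of_le zero_le_one] at hu
    have hJ := v.sub hu
    refine (ContDiffAt.continuousAt (𝕜 := ℝ) (n := ∞) ?_).continuousWithinAt
    exact (((h.contDiffAt (hW u hu)).comp u (v.at_c hJ)).clm_apply ((v.at_V' hJ w).add
      ((((h.contDiffAt_chrisB (hW u hu)).comp u (v.at_c hJ)).clm_apply (v.at_V hJ w)).clm_apply
        (v.at_c' hJ)))).clm_apply (v.at_c' hJ)

theorem at_curv (v : Var J c A) (h : IsMetricOn G W) {u : ℝ} (hu : u ∈ J) (hW : c u ∈ W)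
    {X Y Z : ℝ → E} (hX : ContDiffAt ℝ ∞ X u) (hY : ContDiffAt ℝ ∞ Y u)
    (hZ : ContDiffAt ℝ ∞ Z u) :
    ContDiffAt ℝ ∞ (fun u => curv G (c u) (X u) (Y u) (Z u)) u := by
  have hΓ : ContDiffAt ℝ ∞ (fun u => chrisB G (c u)) u := (h.contDiffAt_chrisB hW).comp u (v.at_c hu)
  have hD : ContDiffAt ℝ ∞ (fun u => fderiv ℝ (chrisB G) (c u)) u :=
    ((h.contDiffAt_chrisB hW).fderiv_right (m := ∞) (by simp)).comp u (v.at_c hu)
  have h1 := ((((hD.clm_apply hX).clm_apply hY).clm_apply hZ).sub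
    (((hD.clm_apply hY).clm_apply hX).clm_apply hZ)).add
    ((hΓ.clm_apply hX).clm_apply ((hΓ.clm_apply hY).clm_apply hZ)) |>.sub
    ((hΓ.clm_apply hY).clm_apply ((hΓ.clm_apply hX).clm_apply hZ))
  refine h1.congr_of_eventuallyEq ?_
  filter_upwards [(v.at_c hu).continuousAt (h.isOpen.mem_nhds hW)] with s hs
  exact h.curv_eq hs _ _ _

theorem at_covD (v : Var J c A) (h : IsMetricOn G W) {u : ℝ} (hu : u ∈ J) (hW : c u ∈ W)
    {X : ℝ → E} (hX : ContDiffAt ℝ ∞ X u) : ContDiffAt ℝ ∞ (covD G c X) u := by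
  have hΓ : ContDiffAt ℝ ∞ (fun u => chrisB G (c u)) u := (h.contDiffAt_chrisB hW).comp u (v.at_c hu)
  have hX' : ContDiffAt ℝ ∞ (deriv X) u := by
    have h1 := (hX.fderiv_right (m := ∞) (by simp)).clm_apply (contDiffAt_const (c := (1 : ℝ)))
    exact h1
  have h1 := hX'.add ((hΓ.clm_apply (v.at_c' hu)).clm_apply hX)
  simp only [chrisB_apply] at h1
  exact h1

theorem at_idn (v : Var J c A) (h : IsMetricOn G W) {u : ℝ} (hu : u ∈ J) (hW : c u ∈ W)
    {X : ℝ → E} (hX : ContDiffAt ℝ ∞ X u) : ContDiffAt ℝ ∞ (idn G c X) u := by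
  have hG : ContDiffAt ℝ ∞ (fun u => G (c u)) u := (h.contDiffAt hW).comp u (v.at_c hu)
  exact ((hG.clm_apply (v.at_covD h hu hW hX)).clm_apply (v.at_covD h hu hW hX)).sub
    ((hG.clm_apply (v.at_curv h hu hW hX (v.at_c' hu) (v.at_c' hu))).clm_apply hX)

theorem intervalIntegrable_of_at (_v : Var J c A) {k : ℝ → ℝ}
    (hk : ∀ u ∈ Icc (0 : ℝ) 1, ContDiffAt ℝ ∞ k u) : IntervalIntegrable k volume 0 1 := by
  refine ContinuousOn.intervalIntegrable fun u hu => ?_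
  rw [uIcc_of_le zero_le_one] at hu
  exact (hk u hu).continuousAt.continuousWithinAt

/-- second variation of the energy of a geodesic -/
theorem fderiv2_en (v : Var J c A) (h : IsMetricOn G W) (hW : ∀ u ∈ Icc (0 : ℝ) 1, c u ∈ W)
    (hg : ∀ u ∈ Icc (0 : ℝ) 1, covD G c (deriv c) u = 0) (w : P) :
    fderiv ℝ (fderiv ℝ (en G c A)) 0 w w = 2 * (idx G c (fun u => A u w)
      + (G (c 1) (chrisB G (c 1) (A 1 w) (A 1 w)) (deriv c 1)
        - G (c 0) (chrisB G (c 0) (A 0 w) (A 0 w)) (deriv c 0))) := by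
  set b : ℝ → ℝ := fun u => G (c u) (chrisB G (c u) (A u w) (A u w)) (deriv c u) with hb
  have hbs : ∀ u ∈ Icc (0 : ℝ) 1, ContDiffAt ℝ ∞ b u := fun u hu => by
    have hJ := v.sub hu
    exact (((h.contDiffAt (hW u hu)).comp u (v.at_c hJ)).clm_apply
      ((((h.contDiffAt_chrisB (hW u hu)).comp u (v.at_c hJ)).clm_apply (v.at_V hJ w)).clm_apply
        (v.at_V hJ w))).clm_apply (v.at_c' hJ)
  have hb's : ∀ u ∈ Icc (0 : ℝ) 1, ContDiffAt ℝ ∞ (deriv b) u := fun u hu =>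
    ((hbs u hu).fderiv_right (m := ∞) (by simp)).clm_apply (contDiffAt_const (c := (1 : ℝ)))
  have h1 : fderiv ℝ (fderiv ℝ (en G c A)) 0 w w = ∫ u in (0 : ℝ)..1,
      2 * (idn G c (fun u => A u w) u + deriv b u) := by
    refine fderiv2_par_line (v.isOpen_dom h.isOpen) (v.axis hW) (v.contDiffOn_dens h) w
      (k := fun u s => 2 * G (c u + s • A u w) (deriv A u w + chrisB G (c u + s • A u w) (A u w)
        (deriv c u + s • deriv A u w)) (deriv c u + s • deriv A u w))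
      (fun u s hs => ?_) (fun u hu => ?_)
    · rw [dens_line]
      exact dens_d1 h (c u) (deriv c u) (A u w) (deriv A u w) (by simpa using hs.2)
    · have hJ := v.sub hu
      refine (dens_d2 h (hW u hu) (deriv c u) (A u w) (deriv A u w)).congr_deriv ?_
      have h2 := bdry_d h (c := c) (T := deriv c) (V := fun u => A u w) (hW u hu) (v.hd_c hJ)
        (v.hd_c' hJ) (v.hd_V hJ w)
      have h3 := hg u hu
      rw [covD, ← chrisB_apply] at h3
      rw [h3] at h2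
      rw [dens_id h (hW u hu), hb, h2.deriv, idn, v.covD_V h hJ (hW u hu)]
      simp only [map_zero]
      ring
  rw [h1, intervalIntegral.integral_const_mul, intervalIntegral.integral_add
    (v.intervalIntegrable_of_at fun u hu => v.at_idn h (v.sub hu) (hW u hu) (v.at_V (v.sub hu) w))
    (v.intervalIntegrable_of_at hb's), intervalIntegral.integral_deriv_eq_sub
    (fun u hu => (hbs u (by rwa [uIcc_of_le zero_le_one] at hu)).differentiableAt (by simp))
    (v.intervalIntegrable_of_at hb's)]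
  rfl

/-- joint smoothness of the energy for a smooth family of coefficients -/
theorem contDiffAt_en_time (v : Var J c A) {Gt : ℝ → E → E →L[ℝ] E →L[ℝ] ℝ} {Ω : Set (ℝ × E)}
    (hΩ : IsOpen Ω) (hG : ContDiffOn ℝ ∞ (fun q : ℝ × E => Gt q.1 q.2) Ω) {t : ℝ}
    (hW : ∀ u ∈ Icc (0 : ℝ) 1, (t, c u) ∈ Ω) :
    ContDiffAt ℝ ∞ (fun q : ℝ × P => en (Gt q.1) c A q.2) (t, 0) ∧
      HasDerivAt (fun s => en (Gt s) c A 0)
        (∫ u in (0 : ℝ)..1, deriv (fun s => Gt s (c u)) t (deriv c u) (deriv c u)) t := by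
  set Ω' : Set (ℝ × (ℝ × P)) := {q | q.1 ∈ J ∧ (q.2.1, c q.1 + A q.1 q.2.2) ∈ Ω} with hΩ'
  have hF : ∀ q : ℝ × (ℝ × P), q.1 ∈ J → ContDiffAt ℝ ∞
      (fun q : ℝ × (ℝ × P) => ((q.2.1, c q.1 + A q.1 q.2.2) : ℝ × E)) q := fun q hq =>
    contDiffAt_snd.fst.prodMk ((v.at_F (q := (q.1, q.2.2)) hq).comp q
      (contDiffAt_fst.prodMk contDiffAt_snd.snd))
  have hF' : ∀ q : ℝ × (ℝ × P), q.1 ∈ J → ContDiffAt ℝ ∞
      (fun q : ℝ × (ℝ × P) => deriv c q.1 + deriv A q.1 q.2.2) q := fun q hq =>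
    (v.at_F' (q := (q.1, q.2.2)) hq).comp q (contDiffAt_fst.prodMk contDiffAt_snd.snd)
  have ho : IsOpen Ω' := by
    rw [isOpen_iff_mem_nhds]
    intro q hq
    exact Filter.inter_mem (continuousAt_fst (v.isOpen.mem_nhds hq.1))
      ((hF q hq.1).continuousAt (hΩ.mem_nhds hq.2))
  have hd : ContDiffOn ℝ ∞ (fun q : ℝ × (ℝ × P) => dens (Gt q.2.1) c A (q.1, q.2.2)) Ω' := by
    intro q hq
    refine ContDiffAt.contDiffWithinAt ?_
    exact (((hG.contDiffAt (hΩ.mem_nhds hq.2)).comp q (hF q hq.1)).clm_apply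
      (hF' q hq.1)).clm_apply (hF' q hq.1)
  have hax : ∀ u ∈ Icc (0 : ℝ) 1, (u, ((t, 0) : ℝ × P)) ∈ Ω' := fun u hu =>
    ⟨v.sub hu, by simpa using hW u hu⟩
  have hs := contDiffAt_par ho hax hd
  refine ⟨hs, ?_⟩
  have h1 := fderiv_par_line ho hax hd ((1, 0) : ℝ × P)
    (k := fun u => deriv (fun s => Gt s (c u)) t (deriv c u) (deriv c u)) (fun u hu => by
      have h2 : DifferentiableAt ℝ (fun s => Gt s (c u)) t :=
        DifferentiableAt.comp (g := fun q : ℝ × E => Gt q.1 q.2) (f := fun s => (s, c u)) t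
          ((hG.contDiffAt (hΩ.mem_nhds (hW u hu))).differentiableAt (by simp))
          (differentiableAt_id.prodMk (differentiableAt_const _))
      have h3 : HasDerivAt (fun s => Gt (t + s) (c u)) (deriv (fun s => Gt s (c u)) t) 0 := by
        have h4 : HasDerivAt (fun s => Gt s (c u)) (deriv (fun s => Gt s (c u)) t) (t + 0) := by
          simpa using h2.hasDerivAt
        exact h4.comp_const_add t 0
      have h5 := (h3.clm_apply (hasDerivAt_const 0 (deriv c u))).clm_apply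
        (hasDerivAt_const 0 (deriv c u))
      simpa [dens] using h5)
  have h6 : HasDerivAt (fun s : ℝ => ((s, 0) : ℝ × P)) (1, 0) t :=
    (hasDerivAt_id t).prodMk (hasDerivAt_const t 0)
  have h7 := (hs.differentiableAt (by simp)).hasFDerivAt.comp_hasDerivAt t h6
  rw [h1] at h7
  exact h7

end Var

end Vale.Agent.P216L
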