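import Vale.Agent.P216L.Par
import Mathlib.Analysis.Calculus.MeanValue
import Mathlib.Topology.UniformSpace.Compact

/-!
# P216L: parameter integrals over `[0, 1]`, smooth up to the boundary of a convex parameter set
-/

open scoped ContDiff Topology
open Set MeasureTheory

set_option linter.unusedSectionVars false

noncomputable section

namespace Vale.Agent.P216L

variable {Q : Type} [NormedAddCommGroup Q] [NormedSpace ℝ Q] {S : Set Q}

theorem hasFDerivWithinAt_par {B : Type} [NormedAddCommGroup B] [NormedSpace ℝ B] [CompleteSpace B]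
    (hS : Convex ℝ S) {f : ℝ → Q → B} {f' : ℝ → Q → Q →L[ℝ] B}
    (hf : ∀ u ∈ Icc (0 : ℝ) 1, ∀ y ∈ S, HasFDerivWithinAt (f u) (f' u y) S y)
    (hc' : ContinuousOn (fun p : Q × ℝ => f' p.2 p.1) (S ×ˢ Icc 0 1))
    (hc : ∀ y ∈ S, ContinuousOn (fun u => f u y) (Icc 0 1)) {q : Q} (hq : q ∈ S) :
    HasFDerivWithinAt (fun y => ∫ u in (0 : ℝ)..1, f u y) (∫ u in (0 : ℝ)..1, f' u q) S q := by
  have hi : ∀ y ∈ S, IntervalIntegrable (fun u => f u y) volume 0 1 := fun y hy =>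
    ((hc y hy).mono (uIcc_of_le zero_le_one).subset).intervalIntegrable
  have hi' : IntervalIntegrable (fun u => f' u q) volume 0 1 := by
    refine ContinuousOn.intervalIntegrable ?_
    rw [uIcc_of_le zero_le_one]
    exact hc'.comp (Continuous.prodMk_right q).continuousOn fun u hu => ⟨hq, hu⟩
  rw [hasFDerivWithinAt_iff_isLittleO, Asymptotics.isLittleO_iff]
  intro ε hε
  obtain ⟨v, hv, hv'⟩ := (isCompact_Icc (a := (0 : ℝ)) (b := 1)).mem_uniformity_of_prod
    (f := fun (y : Q) (u : ℝ) => f' u y) hc' hq (Metric.dist_mem_uniformity hε)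
  obtain ⟨δ, hδ, hb⟩ := Metric.mem_nhdsWithin_iff.1 hv
  filter_upwards [inter_mem_nhdsWithin S (Metric.ball_mem_nhds q hδ)] with y hy
  have hcv : Convex ℝ (S ∩ Metric.ball q δ) := hS.inter (convex_ball q δ)
  have h1 : ∀ u ∈ Icc (0 : ℝ) 1, ‖f u y - f u q - f' u q (y - q)‖ ≤ ε * ‖y - q‖ := fun u hu =>
    hcv.norm_image_sub_le_of_norm_hasFDerivWithin_le' (f' := f' u) (φ := f' u q)
      (fun z hz => (hf u hu z hz.1).mono inter_subset_left)
      (fun z hz => by
        have := hv' z (hb ⟨hz.2, hz.1⟩) u hu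
        rw [mem_ofPred_eq, dist_eq_norm] at this
        exact this.le) ⟨hq, Metric.mem_ball_self hδ⟩ hy
  have hi2 : IntervalIntegrable (fun u => f' u q (y - q)) volume 0 1 :=
    ⟨(ContinuousLinearMap.apply ℝ B (y - q)).integrable_comp hi'.1,
      (ContinuousLinearMap.apply ℝ B (y - q)).integrable_comp hi'.2⟩
  rw [ContinuousLinearMap.intervalIntegral_apply hi', ← intervalIntegral.integral_sub (hi y hy.1)
    (hi q hq), ← intervalIntegral.integral_sub ((hi y hy.1).sub (hi q hq)) hi2]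
  refine (intervalIntegral.norm_integral_le_of_norm_le_const (C := ε * ‖y - q‖)
    fun u hu => ?_).trans (by simp)
  rw [uIoc_of_le zero_le_one] at hu
  exact h1 u (Ioc_subset_Icc_self hu)

theorem hasFDerivWithinAt_par' {B : Type} [NormedAddCommGroup B] [NormedSpace ℝ B] [CompleteSpace B]
    (hS : Convex ℝ S) (hU : UniqueDiffOn ℝ S) {f : ℝ × Q → B}
    (hf : ContDiffOn ℝ ∞ f (Icc 0 1 ×ˢ S)) {q : Q} (hq : q ∈ S) :
    HasFDerivWithinAt (fun y => ∫ u in (0 : ℝ)..1, f (u, y)) (∫ u in (0 : ℝ)..1,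
      (fderivWithin ℝ f (Icc 0 1 ×ˢ S) (u, q)).comp (ContinuousLinearMap.inr ℝ ℝ Q)) S q := by
  have hU' : UniqueDiffOn ℝ (Icc (0 : ℝ) 1 ×ˢ S) := (uniqueDiffOn_Icc zero_lt_one).prod hU
  refine hasFDerivWithinAt_par hS (f := fun u y => f (u, y)) (f' := fun u y =>
    (fderivWithin ℝ f (Icc 0 1 ×ˢ S) (u, y)).comp (ContinuousLinearMap.inr ℝ ℝ Q))
    (fun u hu y hy => ?_) ?_ (fun y hy => ?_) hq
  · exact ((hf.differentiableOn (by simp)) (u, y) ⟨hu, hy⟩).hasFDerivWithinAt.comp y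
      (hasFDerivAt_prodMk_right u y).hasFDerivWithinAt fun z hz => ⟨hu, hz⟩
  · exact ((hf.continuousOn_fderivWithin hU' (by simp)).clm_comp continuousOn_const).comp
      continuous_swap.continuousOn fun p hp => ⟨hp.2, hp.1⟩
  · exact hf.continuousOn.comp (Continuous.prodMk_left y).continuousOn fun u hu => ⟨hu, hy⟩

theorem contDiffOn_par_nat [FiniteDimensional ℝ Q] (hS : Convex ℝ S) (hU : UniqueDiffOn ℝ S)
    (n : ℕ) : ∀ {B : Type} [NormedAddCommGroup B] [NormedSpace ℝ B] [CompleteSpace B]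
    {f : ℝ × Q → B} (_ : ContDiffOn ℝ ∞ f (Icc 0 1 ×ˢ S)),
    ContDiffOn ℝ n (fun y => ∫ u in (0 : ℝ)..1, f (u, y)) S := by
  induction n with
  | zero =>
    intro B _ _ _ f hf
    exact contDiffOn_zero.2 fun q hq => (hasFDerivWithinAt_par' hS hU hf hq).continuousWithinAt
  | succ n ih =>
    intro B _ _ _ f hf
    have hU' : UniqueDiffOn ℝ (Icc (0 : ℝ) 1 ×ˢ S) := (uniqueDiffOn_Icc zero_lt_one).prod hU
    rw [Nat.cast_add, Nat.cast_one, contDiffOn_succ_iff_fderivWithin hU]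
    refine ⟨fun q hq => (hasFDerivWithinAt_par' hS hU hf hq).differentiableWithinAt, by simp, ?_⟩
    exact (ih ((hf.fderivWithin (m := ∞) hU' (by simp)).clm_comp
      (contDiffOn_const (c := ContinuousLinearMap.inr ℝ ℝ Q)))).congr
      fun q hq => (hasFDerivWithinAt_par' hS hU hf hq).fderivWithin (hU q hq)

theorem contDiffOn_par [FiniteDimensional ℝ Q] {B : Type} [NormedAddCommGroup B] [NormedSpace ℝ B]
    [CompleteSpace B] (hS : Convex ℝ S) (hU : UniqueDiffOn ℝ S) {f : ℝ × Q → B}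
    (hf : ContDiffOn ℝ ∞ f (Icc 0 1 ×ˢ S)) :
    ContDiffOn ℝ ∞ (fun y => ∫ u in (0 : ℝ)..1, f (u, y)) S :=
  contDiffOn_infty.2 fun n => contDiffOn_par_nat hS hU n hf

/-- one real parameter -/
theorem hasDerivWithinAt_par {I : Set ℝ} (hS : Convex ℝ I) (hU : UniqueDiffOn ℝ I) {f : ℝ × ℝ → ℝ}
    (hf : ContDiffOn ℝ ∞ f (Icc 0 1 ×ˢ I)) {t : ℝ} (ht : t ∈ I) {k : ℝ → ℝ}
    (hk : ∀ u ∈ Icc (0 : ℝ) 1, HasDerivWithinAt (fun s => f (u, s)) (k u) I t) :
    HasDerivWithinAt (fun s => ∫ u in (0 : ℝ)..1, f (u, s)) (∫ u in (0 : ℝ)..1, k u) I t := by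
  have hU' : UniqueDiffOn ℝ (Icc (0 : ℝ) 1 ×ˢ I) := (uniqueDiffOn_Icc zero_lt_one).prod hU
  refine (hasFDerivWithinAt_par' hS hU hf ht).hasDerivWithinAt.congr_deriv ?_
  rw [ContinuousLinearMap.intervalIntegral_apply]
  · refine intervalIntegral.integral_congr fun u hu => ?_
    rw [uIcc_of_le zero_le_one] at hu
    have h1 := (((hf.differentiableOn (by simp)) (u, t) ⟨hu, ht⟩).hasFDerivWithinAt.comp t
      (hasFDerivAt_prodMk_right u t).hasFDerivWithinAt
      (fun z (hz : z ∈ I) => ⟨hu, hz⟩)).hasDerivWithinAt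
    exact (hU t ht).eq_deriv _ h1 (hk u hu)
  · refine ContinuousOn.intervalIntegrable ?_
    rw [uIcc_of_le zero_le_one]
    exact ((hf.continuousOn_fderivWithin hU' (by simp)).clm_comp continuousOn_const).comp
      (Continuous.prodMk_left t).continuousOn fun u hu => ⟨hu, ht⟩

end Vale.Agent.P216L
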