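import Vale.Agent.P219.H381.R1
import Vale.Agent.P267.H993.Par

/-!
# P216L: first and second variation of the energy in one coordinate domain

`F (u, w) = c u + A u w` is a linear variation of the curve `c`; `en G c A w` is the energy of
`u ↦ F (u, w)` on `[0, 1]`.
-/

open scoped ContDiff Topology
open Set MeasureTheory

set_option maxSynthPendingDepth 3
set_option linter.unusedSectionVars false

noncomputable section

namespace Vale.Agent.P216L

open Vale.Agent.P219.RG

variable {E : Type} [NormedAddCommGroup E] [NormedSpace ℝ E] [FiniteDimensional ℝ E]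
variable {G : E → E →L[ℝ] E →L[ℝ] ℝ} {W : Set E}

theorem hasDerivAt_line (p V : E) (s : ℝ) : HasDerivAt (fun s : ℝ => p + s • V) V s := by
  simpa using ((hasDerivAt_id s).smul_const V).const_add p

/-- first derivative of the energy density along a linear variation -/
theorem dens_d1 (h : IsMetricOn G W) (p T V V' : E) {s : ℝ} (hs : p + s • V ∈ W) :
    HasDerivAt (fun s : ℝ => G (p + s • V) (T + s • V') (T + s • V'))
      (2 * G (p + s • V) (V' + chrisB G (p + s • V) V (T + s • V')) (T + s • V')) s := by
  have h1 := h.hasDerivAt_inner (c := fun s : ℝ => p + s • V) (X := fun s : ℝ => T + s • V')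
    (Y := fun s : ℝ => T + s • V') (t := s) hs (hasDerivAt_line p V s).differentiableAt
    (hasDerivAt_line T V' s).differentiableAt (hasDerivAt_line T V' s).differentiableAt
  refine h1.congr_deriv ?_
  simp only [covD, (hasDerivAt_line p V s).deriv, (hasDerivAt_line T V' s).deriv, chrisB_apply]
  rw [h.symm _ hs (T + s • V')]
  ring

/-- second derivative of the energy density along a linear variation -/
theorem dens_d2 (h : IsMetricOn G W) {p : E} (hp : p ∈ W) (T V V' : E) :
    HasDerivAt (fun s : ℝ =>
        2 * G (p + s • V) (V' + chrisB G (p + s • V) V (T + s • V')) (T + s • V'))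
      (2 * (G p (V' + chrisB G p V T) (V' + chrisB G p V T)
        + G p (fderiv ℝ (chrisB G) p V V T + chrisB G p V V'
          + chrisB G p V (V' + chrisB G p V T)) T)) 0 := by
  have hp0 : p + (0 : ℝ) • V ∈ W := by simpa using hp
  have hΓ : HasDerivAt (fun s : ℝ => chrisB G (p + s • V)) (fderiv ℝ (chrisB G) p V) 0 := by
    have h1 : HasFDerivAt (chrisB G) (fderiv ℝ (chrisB G) p) (p + (0 : ℝ) • V) := by
      simpa using (h.differentiableAt_chrisB hp).hasFDerivAt
    exact h1.comp_hasDerivAt (0 : ℝ) (hasDerivAt_line p V 0)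
  have hX : HasDerivAt (fun s : ℝ => V' + chrisB G (p + s • V) V (T + s • V'))
      (fderiv ℝ (chrisB G) p V V T + chrisB G p V V') 0 := by
    have h1 := ((hΓ.clm_apply (hasDerivAt_const (0 : ℝ) V)).clm_apply
      (hasDerivAt_line T V' 0)).const_add V'
    simpa using h1
  have h1 := (h.hasDerivAt_inner (c := fun s : ℝ => p + s • V)
    (X := fun s : ℝ => V' + chrisB G (p + s • V) V (T + s • V'))
    (Y := fun s : ℝ => T + s • V') (t := 0) hp0 (hasDerivAt_line p V 0).differentiableAt
    hX.differentiableAt (hasDerivAt_line T V' 0).differentiableAt).const_mul 2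
  refine h1.congr_deriv ?_
  simp only [covD, (hasDerivAt_line p V 0).deriv, (hasDerivAt_line T V' 0).deriv, hX.deriv,
    ← chrisB_apply, zero_smul, add_zero]
  ring

/-- derivative along the curve of `G (Γ (V, V), T)` -/
theorem bdry_d (h : IsMetricOn G W) {c T V : ℝ → E} {u : ℝ} {T' V' : E} (hu : c u ∈ W)
    (hc : HasDerivAt c (T u) u) (hT : HasDerivAt T T' u) (hV : HasDerivAt V V' u) :
    HasDerivAt (fun u => G (c u) (chrisB G (c u) (V u) (V u)) (T u))
      (G (c u) (fderiv ℝ (chrisB G) (c u) (T u) (V u) (V u) + chrisB G (c u) V' (V u)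
          + chrisB G (c u) (V u) V' + chrisB G (c u) (T u) (chrisB G (c u) (V u) (V u))) (T u)
        + G (c u) (chrisB G (c u) (V u) (V u)) (T' + chrisB G (c u) (T u) (T u))) u := by
  have hΓ : HasDerivAt (fun u => chrisB G (c u)) (fderiv ℝ (chrisB G) (c u) (T u)) u :=
    (h.differentiableAt_chrisB hu).hasFDerivAt.comp_hasDerivAt u hc
  have hX := (hΓ.clm_apply hV).clm_apply hV
  have h1 := h.hasDerivAt_inner (c := c) (X := fun u => chrisB G (c u) (V u) (V u)) (Y := T)
    (t := u) hu hc.differentiableAt hX.differentiableAt hT.differentiableAt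
  refine h1.congr_deriv ?_
  simp only [covD, hc.deriv, hT.deriv, hX.deriv, ← chrisB_apply, add_apply]

theorem curv_skew' (h : IsMetricOn G W) {p : E} (hp : p ∈ W) (x y z w : E) :
    G p (curv G p x y z) w = - G p (curv G p x y w) z := by
  have h1 := h.curv_skew hp x y (z + w)
  have h2 := h.curv_skew hp x y z
  have h3 := h.curv_skew hp x y w
  simp only [h.curv_eq hp, map_add, map_sub, add_apply,
    sub_apply] at h1 h2 h3 ⊢
  linarith

/-- the pointwise second variation identity -/
theorem dens_id (h : IsMetricOn G W) {p : E} (hp : p ∈ W) (T V V' : E) :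
    G p (fderiv ℝ (chrisB G) p V V T + chrisB G p V V' + chrisB G p V (V' + chrisB G p V T)) T
      = - G p (curv G p V T T) V
        + G p (fderiv ℝ (chrisB G) p T V V + chrisB G p V' V
          + chrisB G p V V' + chrisB G p T (chrisB G p V V)) T := by
  rw [← curv_skew' h hp V T V T, h.curv_eq hp]
  have hs : ∀ a b, chrisB G p a b = chrisB G p b a := fun a b => by
    simp only [chrisB_apply]; exact h.chris_symm hp a b
  have hd : fderiv ℝ (chrisB G) p V V T = fderiv ℝ (chrisB G) p V T V := by
    rw [← h.fderiv_chris hp, ← h.fderiv_chris hp]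
    congr 1
    apply Filter.EventuallyEq.fderiv_eq
    filter_upwards [h.isOpen.mem_nhds hp] with q hq
    exact h.chris_symm hq V T
  rw [hd, hs V' V, hs V T]
  simp only [map_add, map_sub, add_apply, sub_apply]
  ring

end Vale.Agent.P216L
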