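import Vale.Agent.P216L.En
import Vale.Agent.P216B.Len
import Vale.Agent.P253.H51.Frame

/-!
# P216L: straight geodesic segments in a coordinate domain, parallel frames, support functions
-/

open scoped Manifold ContDiff Topology
open Set MeasureTheory

set_option maxSynthPendingDepth 3
set_option linter.unusedSectionVars false

noncomputable section

namespace Vale.Agent.P216L

open Vale.Agent.P219.RG Vale.Agent.P216R
open Vale.Agent.P210.R2.H53 (hessG)

variable {E : Type} [NormedAddCommGroup E] [NormedSpace ℝ E] [FiniteDimensional ℝ E]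

/-- solutions of smooth equations are smooth -/
theorem contDiffOn_of_ode {X : Type} [NormedAddCommGroup X] [NormedSpace ℝ X] {y : ℝ → X}
    {F : ℝ × X → X} {s : Set ℝ} (hs : IsOpen s) (hy : ∀ t ∈ s, HasDerivAt y (F (t, y t)) t)
    (hF : ∀ t ∈ s, ContDiffAt ℝ ∞ F (t, y t)) : ContDiffOn ℝ ∞ y s := by
  refine contDiffOn_infty.2 fun n => ?_
  induction n with
  | zero => exact contDiffOn_zero.2 fun t ht => (hy t ht).continuousAt.continuousWithinAt
  | succ n ih =>
    rw [Nat.cast_add, Nat.cast_one, contDiffOn_succ_iff_deriv_of_isOpen hs]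
    refine ⟨fun t ht => (hy t ht).differentiableAt.differentiableWithinAt, by simp, ?_⟩
    refine ContDiffOn.congr (f := fun t => F (t, y t)) (fun t ht => ?_) fun t ht => (hy t ht).deriv
    exact ((hF t ht).of_le (by exact_mod_cast le_top)).comp_contDiffWithinAt t
      (contDiffWithinAt_id.prodMk (ih t ht))

theorem chris_eq (G : E → Bil E) (z : E) : P210.R2.H53.chris G z = chrisB G z := by
  ext v w
  simp [P210.R2.H53.chris, P210.R2.H53.koszulL, chrisB]

theorem hessG_apply (G : E → Bil E) (φ : E → ℝ) (z v w : E) :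
    hessG G φ z v w = fderiv ℝ (fderiv ℝ φ) z v w - fderiv ℝ φ z (chrisB G z v w) := by
  simp [hessG, chris_eq]

/-- `s ↦ s • e` is a unit speed geodesic of `G` on `[0, L]` -/
structure Seg (G : E → Bil E) (W : Set E) (e : E) (L : ℝ) : Prop where
  met : IsMetricOn G W
  pos : 0 < L
  mem : ∀ s ∈ Icc 0 L, s • e ∈ W
  unit : ∀ s ∈ Icc 0 L, G (s • e) e e = 1
  geo : ∀ s ∈ Icc 0 L, chrisB G (s • e) e e = 0

/-- a parallel frame along the segment, equal to the identity at the end point -/
structure Par (G : E → Bil E) (e : E) (L : ℝ) (J : Set ℝ) (P : ℝ → E →L[ℝ] E) : Prop where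
  isOpen : IsOpen J
  sub : Icc 0 L ⊆ J
  smooth : ContDiffOn ℝ ∞ P J
  last : P L = ContinuousLinearMap.id ℝ E
  der : ∀ s ∈ J, HasDerivAt P (-((chrisB G (s • e) e).comp (P s))) s
  iso : ∀ s ∈ Icc 0 L, ∀ v w, G (s • e) (P s v) (P s w) = G (L • e) v w
  tan : ∀ s ∈ Icc 0 L, ∀ v, G (s • e) (P s v) e = G (L • e) v e
  fix : ∀ s ∈ Icc 0 L, P s e = e

variable {G : E → Bil E} {W : Set E} {e : E} {L : ℝ}

theorem hasDerivAt_ray (e : E) (s : ℝ) : HasDerivAt (fun s : ℝ => s • e) e s := by
  simpa using (hasDerivAt_id s).smul_const e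

theorem const_of_deriv {k : ℝ → ℝ} {L : ℝ} (h : ∀ s ∈ Icc 0 L, HasDerivAt k 0 s) {s : ℝ}
    (hs : s ∈ Icc 0 L) : k s = k L := by
  have h1 := constant_of_has_deriv_right_zero (f := k) (a := 0) (b := L)
    (fun x hx => (h x hx).continuousAt.continuousWithinAt)
    (fun x hx => (h x (Ico_subset_Icc_self hx)).hasDerivWithinAt)
  rw [h1 s hs, h1 L ⟨hs.1.trans hs.2, le_rfl⟩]

theorem Seg.exists_par (h : Seg G W e L) : ∃ J P, Par G e L J P := by
  have : CompleteSpace E := FiniteDimensional.complete ℝ E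
  have hc : Continuous fun s : ℝ => s • e := by fun_prop
  obtain ⟨δ, hδ, hsub⟩ := (isCompact_Icc (a := 0) (b := L)).exists_cthickening_subset_open
    (h.met.isOpen.preimage hc) h.mem
  have hL := h.pos
  have hin : ∀ s ∈ Icc (-δ) (L + δ), s • e ∈ W := fun s hs => by
    refine hsub (Metric.mem_cthickening_of_dist_le s (max 0 (min s L)) δ _
      ⟨le_max_left _ _, max_le hL.le (min_le_right _ _)⟩ ?_)
    rw [Real.dist_eq, abs_le]
    rcases le_total s L with h1 | h1 <;> rcases le_total 0 s with h2 | h2 <;>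
      simp only [min_eq_left, min_eq_right, max_eq_left, max_eq_right, h1, h2, hL.le] <;>
      constructor <;> linarith [hs.1, hs.2]
  have hab : -δ ≤ L + δ := by linarith
  have hN : Continuous fun s : ℝ => chrisB G ((projIcc (-δ) (L + δ) hab s : ℝ) • e) e := by
    have h1 : ContinuousOn (fun s : ℝ => chrisB G (s • e) e) (Icc (-δ) (L + δ)) := fun s hs =>
      ((ContinuousAt.comp (f := fun s : ℝ => s • e) (h.met.contDiffAt_chrisB (hin s hs)).continuousAt
        hc.continuousAt).clm_apply continuousAt_const).continuousWithinAt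
    exact h1.comp_continuous (continuous_subtype_val.comp continuous_projIcc)
      fun s => (projIcc (-δ) (L + δ) hab s).2
  obtain ⟨A, hA0, hA, -⟩ := P253.H51.exists_frame_equiv hN L
  have hJ : Icc 0 L ⊆ Ioo (-δ) (L + δ) := fun s hs => ⟨by linarith [hs.1], by linarith [hs.2]⟩
  have hder : ∀ s ∈ Ioo (-δ) (L + δ), HasDerivAt (fun t => (A t : E →L[ℝ] E))
      (-((chrisB G (s • e) e).comp (A s : E →L[ℝ] E))) s := fun s hs => by
    have h1 := hA s
    rwa [projIcc_of_mem hab (Ioo_subset_Icc_self hs)] at h1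
  have hcov : ∀ s ∈ Icc 0 L, ∀ v, HasDerivAt (fun t => (A t : E →L[ℝ] E) v)
      (-(chrisB G (s • e) e ((A s : E →L[ℝ] E) v))) s := fun s hs v => by
    simpa using (hder s (hJ hs)).clm_apply (hasDerivAt_const s v)
  have hcov' : ∀ s ∈ Icc 0 L, ∀ v,
      covD G (fun s : ℝ => s • e) (fun t => (A t : E →L[ℝ] E) v) s = 0 := fun s hs v => by
    rw [covD, (hcov s hs v).deriv, (hasDerivAt_ray e s).deriv, chrisB_apply, neg_add_cancel]
  have hiso : ∀ s ∈ Icc 0 L, ∀ v w, G (s • e) ((A s : E →L[ℝ] E) v) ((A s : E →L[ℝ] E) w)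
      = G (L • e) v w := fun s hs v w => by
    have h1 := const_of_deriv (k := fun s => G (s • e) ((A s : E →L[ℝ] E) v)
      ((A s : E →L[ℝ] E) w)) (fun t ht => by
        have h2 := h.met.hasDerivAt_inner (c := fun s : ℝ => s • e) (h.mem t ht)
          (hasDerivAt_ray e t).differentiableAt (hcov t ht v).differentiableAt
          (hcov t ht w).differentiableAt
        rw [hcov' t ht, hcov' t ht] at h2
        simpa using h2) hs
    simpa only [hA0, ContinuousLinearMap.id_apply] using h1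
  have htan : ∀ s ∈ Icc 0 L, ∀ v, G (s • e) ((A s : E →L[ℝ] E) v) e = G (L • e) v e :=
    fun s hs v => by
    have h1 := const_of_deriv (k := fun s => G (s • e) ((A s : E →L[ℝ] E) v) e) (fun t ht => by
        have h2 := h.met.hasDerivAt_inner (c := fun s : ℝ => s • e) (Y := fun _ => e) (h.mem t ht)
          (hasDerivAt_ray e t).differentiableAt (hcov t ht v).differentiableAt
          (differentiableAt_const e)
        rw [hcov' t ht, covD, deriv_const, (hasDerivAt_ray e t).deriv, ← chrisB_apply,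
          h.geo t ht] at h2
        simpa using h2) hs
    simpa only [hA0, ContinuousLinearMap.id_apply] using h1
  refine ⟨Ioo (-δ) (L + δ), fun t => (A t : E →L[ℝ] E), isOpen_Ioo, hJ, ?_, hA0, hder, hiso, htan,
    fun s hs => ?_⟩
  · refine contDiffOn_of_ode (F := fun q : ℝ × (E →L[ℝ] E) => -((chrisB G (q.1 • e) e).comp q.2))
      isOpen_Ioo hder fun t ht => ?_
    have h1 : ContDiffAt ℝ ∞ (fun q : ℝ × (E →L[ℝ] E) => chrisB G (q.1 • e))
        (t, (A t : E →L[ℝ] E)) :=
      ContDiffAt.comp (g := chrisB G) _ (h.met.contDiffAt_chrisB (hin t (Ioo_subset_Icc_self ht)))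
        (contDiffAt_fst.smul contDiffAt_const)
    exact ((h1.clm_apply contDiffAt_const).clm_comp contDiffAt_snd).neg
  · refine h.met.ext_of (h.mem s hs) fun z => ?_
    obtain ⟨v, rfl⟩ := (A s).surjective z
    have h1 := hiso s hs e v
    have h2 := htan s hs v
    rw [h.met.symm _ (h.mem s hs)] at h2
    rw [h.met.symm _ (h.mem L ⟨hL.le, le_rfl⟩)] at h1
    exact h1.trans h2.symm

/-- the curve of the variation -/
def sc (e : E) (L : ℝ) (u : ℝ) : E := (L * u) • e

/-- the variation field with profile `α` in the normal directions -/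
def sA (G : E → Bil E) (e : E) (L : ℝ) (P : ℝ → E →L[ℝ] E) (α : ℝ → ℝ) (u : ℝ) : E →L[ℝ] E :=
  α (L * u) • (P (L * u)).comp (ContinuousLinearMap.id ℝ E - (G (L • e) e).smulRight e)
    + u • (G (L • e) e).smulRight e

theorem sA_apply (P : ℝ → E →L[ℝ] E) (α : ℝ → ℝ) (u : ℝ) (w : E) : sA G e L P α u w =
    α (L * u) • P (L * u) (w - G (L • e) e w • e) + u • G (L • e) e w • e := by
  simp [sA]

theorem hasDerivAt_sc (e : E) (L u : ℝ) : HasDerivAt (sc e L) (L • e) u := by
  have h := ((hasDerivAt_id u).const_mul L).smul_const e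
  rw [mul_one] at h
  exact h

theorem deriv_sc (e : E) (L : ℝ) : deriv (sc e L) = fun _ => L • e :=
  funext fun u => (hasDerivAt_sc e L u).deriv

variable {J : Set ℝ} {P : ℝ → E →L[ℝ] E} {α : ℝ → ℝ}

theorem Seg.scale (h : Seg G W e L) {u : ℝ} (hu : u ∈ Icc (0 : ℝ) 1) : L * u ∈ Icc 0 L :=
  ⟨mul_nonneg h.pos.le hu.1, mul_le_of_le_one_right h.pos.le hu.2⟩

theorem Seg.var (h : Seg G W e L) (p : Par G e L J P) (hα : ContDiff ℝ ∞ α) :
    Var ((fun u => L * u) ⁻¹' J) (sc e L) (sA G e L P α) := by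
  have hm : ContDiff ℝ ∞ fun u : ℝ => L * u := by fun_prop
  refine ⟨p.isOpen.preimage hm.continuous, fun u hu => p.sub (h.scale hu), ?_, ?_⟩
  · unfold sc
    fun_prop
  · exact ((hα.comp hm).contDiffOn.smul ((p.smooth.comp hm.contDiffOn fun _ hu => hu).clm_comp
      contDiffOn_const)).add (contDiffOn_id.smul contDiffOn_const)

theorem Seg.sc_mem (h : Seg G W e L) : ∀ u ∈ Icc (0 : ℝ) 1, sc e L u ∈ W :=
  fun _ hu => h.mem _ (h.scale hu)

theorem Seg.sc_geo (h : Seg G W e L) :
    ∀ u ∈ Icc (0 : ℝ) 1, covD G (sc e L) (deriv (sc e L)) u = 0 := fun u hu => by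
  rw [covD, deriv_sc, ← chrisB_apply]
  simp [sc, h.geo _ (h.scale hu)]

theorem Seg.covD_sA (h : Seg G W e L) (p : Par G e L J P) (hα : ContDiff ℝ ∞ α) (w : E) {u : ℝ}
    (hu : u ∈ Icc (0 : ℝ) 1) : covD G (sc e L) (fun u => sA G e L P α u w) u =
      (L * deriv α (L * u)) • P (L * u) (w - G (L • e) e w • e) + G (L • e) e w • e := by
  have hm : HasDerivAt (fun u : ℝ => L * u) L u := by simpa using (hasDerivAt_id u).const_mul L
  have h1 : HasDerivAt (fun u => α (L * u)) (deriv α (L * u) * L) u :=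
    (hα.differentiable (by simp) _).hasDerivAt.comp u hm
  have h2 := ((p.der _ (p.sub (h.scale hu))).scomp u hm).clm_apply
    (hasDerivAt_const u (w - G (L • e) e w • e))
  have h3 := (h1.smul h2).add ((hasDerivAt_id u).smul_const (G (L • e) e w • e))
  have h4 : HasDerivAt (fun u => sA G e L P α u w) _ u :=
    h3.congr_of_eventuallyEq (Filter.Eventually.of_forall fun u => sA_apply P α u w)
  rw [covD, h4.deriv, deriv_sc, ← chrisB_apply, sA_apply]
  simp only [sc, map_add, map_smul, smul_apply, h.geo _ (h.scale hu), Function.comp_apply,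
    neg_apply, ContinuousLinearMap.comp_apply, map_zero]
  module

theorem Seg.curv_tan (h : Seg G W e L) {s : ℝ} (hs : s ∈ Icc 0 L) (X : E) (a b : ℝ) :
    G (s • e) (curv G (s • e) (a • X + b • e) e e) (a • X + b • e)
      = a ^ 2 * G (s • e) (curv G (s • e) X e e) X := by
  have h1 := h.met.curv_skew (h.mem s hs) X e e
  simp only [h.met.curv_eq (h.mem s hs), map_add, map_sub, map_smul, add_apply, sub_apply,
    smul_apply, smul_eq_mul] at h1 ⊢
  linear_combination a * b * h1

/-- the integrand of the Hessian of the support function -/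
def hk (G : E → Bil E) (e : E) (L : ℝ) (P : ℝ → E →L[ℝ] E) (α : ℝ → ℝ) (w : E) (s : ℝ) : ℝ :=
  deriv α s ^ 2 * (G (L • e) w w - G (L • e) e w ^ 2)
    - α s ^ 2 * G (s • e) (curv G (s • e) (P s w) e e) (P s w)

theorem Seg.idn_sA (h : Seg G W e L) (p : Par G e L J P) (hα : ContDiff ℝ ∞ α) (w : E) {u : ℝ}
    (hu : u ∈ Icc (0 : ℝ) 1) : idn G (sc e L) (fun u => sA G e L P α u w) u =
      L ^ 2 * hk G e L P α w (L * u) + G (L • e) e w ^ 2 := by
  have hs := h.scale hu
  have hL : L ∈ Icc 0 L := ⟨h.pos.le, le_rfl⟩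
  set a := G (L • e) e w with ha
  have c1 : G ((L * u) • e) (curv G ((L * u) • e) (sA G e L P α u w) e e) (sA G e L P α u w)
      = α (L * u) ^ 2 * G ((L * u) • e) (curv G ((L * u) • e) (P (L * u) w) e e) (P (L * u) w) := by
    have c2 : sA G e L P α u w = α (L * u) • P (L * u) w + (u * a - α (L * u) * a) • e := by
      rw [sA_apply, map_sub, map_smul, p.fix _ hs]
      module
    rw [c2, h.curv_tan hs]
  have c3 : ∀ X, curv G ((L * u) • e) X (L • e) (L • e) = L ^ 2 • curv G ((L * u) • e) X e e := by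
    intro X
    simp only [h.met.curv_eq (h.mem _ hs), map_smul, smul_apply]
    module
  have c4 := p.iso _ hs (w - a • e) (w - a • e)
  have c5 := p.tan _ hs (w - a • e)
  have c6 := h.unit _ hL
  have c7 := h.met.symm _ (h.mem _ hL) w e
  have c8 := h.met.symm _ (h.mem _ hs) e (P (L * u) (w - a • e))
  rw [idn, h.covD_sA p hα w hu, deriv_sc]
  simp only [sc, c3, map_smul (G _), smul_apply, smul_eq_mul, c1, hk]
  generalize P (L * u) (w - a • e) = Y at c4 c5 c8 ⊢
  simp only [map_add, map_sub, map_smul, add_apply, sub_apply, smul_apply, smul_eq_mul, c4, c5, c8,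
    c6, c7, ← ha, h.unit _ hs]
  ring

theorem Seg.integrable_hk (h : Seg G W e L) (p : Par G e L J P) (hα : ContDiff ℝ ∞ α) (w : E) :
    IntervalIntegrable (fun u => hk G e L P α w (L * u)) volume 0 1 := by
  have v := h.var p hα
  have h1 := v.intervalIntegrable_of_at fun u hu =>
    v.at_idn h.met (v.sub hu) (h.sc_mem u hu) (v.at_V (v.sub hu) w)
  refine ((h1.sub (intervalIntegrable_const (c := G (L • e) e w ^ 2))).const_mul
    (L ^ 2)⁻¹).congr fun u hu => ?_
  rw [uIoc_of_le zero_le_one] at hu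
  have hL := h.pos.ne'
  simp only [h.idn_sA p hα w (Ioc_subset_Icc_self hu)]
  field_simp
  ring

theorem Seg.idx_sA (h : Seg G W e L) (p : Par G e L J P) (hα : ContDiff ℝ ∞ α) (w : E) :
    idx G (sc e L) (fun u => sA G e L P α u w) =
      L * (∫ s in (0 : ℝ)..L, hk G e L P α w s) + G (L • e) e w ^ 2 := by
  have h1 : idx G (sc e L) (fun u => sA G e L P α u w) =
      ∫ u in (0 : ℝ)..1, (L ^ 2 * hk G e L P α w (L * u) + G (L • e) e w ^ 2) :=
    intervalIntegral.integral_congr fun u hu =>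
      h.idn_sA p hα w (by rwa [uIcc_of_le zero_le_one] at hu)
  rw [h1, intervalIntegral.integral_add ((h.integrable_hk p hα w).const_mul _)
    intervalIntegrable_const, intervalIntegral.integral_const_mul,
    intervalIntegral.integral_comp_mul_left _ h.pos.ne']
  have hL := h.pos.ne'
  simp only [mul_zero, mul_one, smul_eq_mul, intervalIntegral.integral_const, sub_zero, one_mul]
  field_simp

theorem Seg.en_zero (h : Seg G W e L) (A : ℝ → E →L[ℝ] E) : en G (sc e L) A 0 = L ^ 2 := by
  have h1 : en G (sc e L) A 0 = ∫ _ in (0 : ℝ)..1, L ^ 2 :=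
    intervalIntegral.integral_congr fun u hu => by
      rw [uIcc_of_le zero_le_one] at hu
      simp [dens, deriv_sc, sc, h.unit _ (h.scale hu), sq]
  simp [h1]

theorem sA_zero (h0 : α 0 = 0) (w : E) : sA G e L P α 0 w = 0 := by simp [sA_apply, h0]

theorem Par.sA_one (p : Par G e L J P) (h1 : α L = 1) (w : E) : sA G e L P α 1 w = w := by
  simp [sA_apply, h1, p.last]

/-- second derivative of the square root of a translate -/
theorem fderiv2_sqrt {φ : E → ℝ} (hφ : ContDiffAt ℝ ∞ φ 0) (h0 : 0 < φ 0) (x : E) :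
    ContDiffAt ℝ ∞ (fun y => √(φ (y - x))) x ∧
    (∀ w, fderiv ℝ (fun y => √(φ (y - x))) x w = fderiv ℝ φ 0 w / (2 * √(φ 0))) ∧
    ∀ w, fderiv ℝ (fderiv ℝ (fun y => √(φ (y - x)))) x w w =
      fderiv ℝ (fderiv ℝ φ) 0 w w / (2 * √(φ 0)) - fderiv ℝ φ 0 w ^ 2 / (4 * √(φ 0) ^ 3) := by
  have hs : ContDiffAt ℝ ∞ (fun y => y - x) x := by fun_prop
  have hφ' : ContDiffAt ℝ ∞ φ (x - x) := by rwa [sub_self]
  have h1 : ContDiffAt ℝ ∞ (fun y => √(φ (y - x))) x :=
    (ContDiffAt.comp (f := fun y => y - x) x hφ' hs).sqrt (by simpa using h0.ne')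
  have hev : ∀ᶠ y in 𝓝 x, ∀ w, fderiv ℝ (fun y => √(φ (y - x))) y w
      = fderiv ℝ φ (y - x) w / (2 * √(φ (y - x))) := by
    have a1 : ∀ᶠ z in 𝓝 (x - x), DifferentiableAt ℝ φ z ∧ φ z ≠ 0 := by
      filter_upwards [(hφ'.of_le (m := 1) (by simp)).eventually (by simp),
        hφ'.continuousAt.eventually_ne (y := 0) (by simpa using h0.ne')] with z a b
        using ⟨a.differentiableAt one_ne_zero, b⟩
    filter_upwards [hs.continuousAt a1] with y hy w
    have a2 := (hy.1.hasFDerivAt.comp y ((hasFDerivAt_id y).sub_const x)).sqrt hy.2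
    rw [show (fun y => √(φ (y - x))) = fun y => √((φ ∘ fun y => id y - x) y) from rfl, a2.fderiv]
    simp
    ring
  refine ⟨h1, fun w => by simpa using hev.self_of_nhds w, fun w => ?_⟩
  have hd : DifferentiableAt ℝ (fderiv ℝ (fun y => √(φ (y - x)))) x :=
    (h1.fderiv_right (m := 1) (by norm_cast)).differentiableAt (by simp)
  have e1 : fderiv ℝ (fderiv ℝ (fun y => √(φ (y - x)))) x w w
      = fderiv ℝ (fun z => fderiv ℝ (fun y => √(φ (y - x))) z w) x w := by
    rw [(hd.hasFDerivAt.clm_apply (hasFDerivAt_const w x)).fderiv]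
    simp
  have e2 : (fun z => fderiv ℝ (fun y => √(φ (y - x))) z w) =ᶠ[𝓝 x]
      fun y => fderiv ℝ φ (y - x) w * (2 * √(φ (y - x)))⁻¹ := hev.mono fun y hy => hy w
  have b0 := (hasFDerivAt_id (𝕜 := ℝ) x).sub_const x
  have b1 : HasFDerivAt (fderiv ℝ φ) (fderiv ℝ (fderiv ℝ φ) 0) (id x - x) := by
    simpa using ((hφ.fderiv_right (m := 1) (by norm_cast)).differentiableAt (by simp)).hasFDerivAt
  have b2 : HasFDerivAt φ (fderiv ℝ φ 0) (id x - x) := by
    simpa using (hφ.differentiableAt (by simp)).hasFDerivAt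
  have hq : 0 < √(φ 0) := Real.sqrt_pos.2 h0
  have b3 := ((HasFDerivAt.comp (f := fun y => id y - x) x b2 b0).sqrt
    (by simpa using h0.ne')).const_mul 2
  have b4 := (hasFDerivAt_inv (x := 2 * √((φ ∘ fun y => id y - x) x))
    (by simpa using hq.ne')).comp x b3
  have b5 := ((HasFDerivAt.comp (f := fun y => id y - x) x b1 b0).clm_apply
    (hasFDerivAt_const w x)).mul b4
  rw [e1, e2.fderiv_eq]
  refine (congrArg (fun L => L w) b5.fderiv).trans ?_
  simp
  field_simp
  ring

/-- the support function in the coordinate domain -/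
def sF (G G₀ : E → Bil E) (e : E) (L : ℝ) (P : ℝ → E →L[ℝ] E) (α : ℝ → ℝ) (y : E) : ℝ :=
  √(en G (sc e L) (sA G₀ e L P α) (y - L • e))

theorem Seg.support (h : Seg G W e L) (p : Par G e L J P) (hα : ContDiff ℝ ∞ α) (h0 : α 0 = 0)
    (h1 : α L = 1) : ContDiffAt ℝ ∞ (sF G G e L P α) (L • e) ∧ sF G G e L P α (L • e) = L ∧
      (∀ w, fderiv ℝ (sF G G e L P α) (L • e) w = G (L • e) e w) ∧
      ∀ w, hessG G (sF G G e L P α) (L • e) w w = ∫ s in (0 : ℝ)..L, hk G e L P α w s := by
  have v := h.var p hα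
  have hL := h.pos
  have e0 := h.en_zero (sA G e L P α)
  have hq : √(en G (sc e L) (sA G e L P α) 0) = L := by rw [e0, Real.sqrt_sq hL.le]
  obtain ⟨a1, a2, a3⟩ := fderiv2_sqrt (v.contDiffAt_en h.met h.sc_mem)
    (by rw [e0]; positivity) (L • e)
  have hx : sc e L 1 = L • e := by simp [sc]
  have d1 : ∀ w, fderiv ℝ (en G (sc e L) (sA G e L P α)) 0 w = 2 * L * G (L • e) e w := fun w => by
    rw [v.fderiv_en h.met h.sc_mem h.sc_geo, sA_zero h0, p.sA_one h1, deriv_sc, hx,
      h.met.symm _ (h.mem L ⟨hL.le, le_rfl⟩) e w]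
    simp
    ring
  have d2 : ∀ w, fderiv ℝ (sF G G e L P α) (L • e) w = G (L • e) e w := fun w => by
    refine (a2 w).trans ?_
    rw [d1, hq]
    field_simp
  refine ⟨a1, by simpa [sF] using hq, d2, fun w => ?_⟩
  rw [hessG_apply, d2]
  refine (congrArg (· - _) (a3 w)).trans ?_
  rw [d1, hq, v.fderiv2_en h.met h.sc_mem h.sc_geo, h.idx_sA p hα, sA_zero h0, p.sA_one h1,
    deriv_sc, hx, h.met.symm _ (h.mem L ⟨hL.le, le_rfl⟩) e (chrisB _ _ _ _)]
  simp only [map_zero, map_smul, smul_eq_mul, zero_apply]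
  field_simp
  ring

/-- the distance between the end points of a varied curve is at most the root of the energy -/
theorem Var.ed_le {Q : Type} [NormedAddCommGroup Q] [NormedSpace ℝ Q] [FiniteDimensional ℝ Q]
    {c : ℝ → E} {A : ℝ → Q →L[ℝ] E} (v : Var J c A) (h : IsMetricOn G W) {w : Q}
    (hw : ∀ u ∈ Icc (0 : ℝ) 1, c u + A u w ∈ W) :
    ed G W (c 0 + A 0 w) (c 1 + A 1 w) ≤ ENNReal.ofReal √(en G c A w) := by
  have hcrv : Crv E W (fun u => c u + A u w) 0 1 := ⟨zero_le_one, fun u hu =>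
    (((v.at_c (v.sub hu)).add (v.at_V (v.sub hu) w)).of_le
      (by exact_mod_cast le_top)).contMDiffAt.contMDiffWithinAt, hw⟩
  refine (ed_le_len hcrv).trans ?_
  have hint : IntervalIntegrable (fun u => dens G c A (u, w)) volume 0 1 :=
    (continuousOn_slice (Ω := {q : ℝ × Q | q.1 ∈ J ∧ c q.1 + A q.1 q.2 ∈ W})
      (fun u hu => ⟨v.sub hu, hw u hu⟩) (v.contDiffOn_dens h).continuousOn).intervalIntegrable
  have hnn : ∀ u ∈ Icc (0 : ℝ) 1, 0 ≤ dens G c A (u, w) := fun u hu => h.nonneg (hw u hu) _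
  have hen : 0 ≤ en G c A w := intervalIntegral.integral_nonneg zero_le_one hnn
  refine ENNReal.le_of_forall_pos_le_add fun ε hε _ => ?_
  set l : ℝ := √(en G c A w) + ε with hl
  have hq := Real.sqrt_nonneg (en G c A w)
  have hε' : (0 : ℝ) < ε := hε
  have hl0 : 0 < l := by positivity
  have hint2 : IntervalIntegrable (fun u => (dens G c A (u, w) / l + l) / 2) volume 0 1 :=
    ((hint.div_const l).add intervalIntegrable_const).div_const 2
  calc len G (fun u => c u + A u w) 0 1
      ≤ ∫⁻ u in Ioo (0 : ℝ) 1, ENNReal.ofReal ((dens G c A (u, w) / l + l) / 2) := by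
        refine setLIntegral_mono' measurableSet_Ioo fun u hu => ENNReal.ofReal_le_ofReal ?_
        have hu' := Ioo_subset_Icc_self hu
        rw [spd, vel_model, (v.hd_vr (v.sub hu') w).deriv]
        change √(dens G c A (u, w)) ≤ _
        have b1 := Real.sq_sqrt (hnn u hu')
        rw [le_div_iff₀ two_pos, div_add' _ _ _ hl0.ne', le_div_iff₀ hl0]
        nlinarith [sq_nonneg (√(dens G c A (u, w)) - l)]
    _ = ENNReal.ofReal (∫ u in (0 : ℝ)..1, (dens G c A (u, w) / l + l) / 2) := by
        rw [intervalIntegral.integral_of_le zero_le_one, integral_Ioc_eq_integral_Ioo,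
          ofReal_integral_eq_lintegral_ofReal
            ((intervalIntegrable_iff_integrableOn_Ioo_of_le zero_le_one).1 hint2)]
        refine (ae_restrict_iff' measurableSet_Ioo).2 (Filter.Eventually.of_forall fun u hu => ?_)
        have := hnn u (Ioo_subset_Icc_self hu)
        change 0 ≤ _
        positivity
    _ ≤ ENNReal.ofReal √(en G c A w) + ε := by
        rw [← ENNReal.ofReal_coe_nnreal, ← ENNReal.ofReal_add hq hε'.le,
          intervalIntegral.integral_div, intervalIntegral.integral_add (hint.div_const l)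
            intervalIntegrable_const, intervalIntegral.integral_div]
        refine ENNReal.ofReal_le_ofReal ?_
        have b1 := Real.sq_sqrt hen
        have b2 : en G c A w / l ≤ l := by
          rw [div_le_iff₀ hl0]
          nlinarith
        simp only [intervalIntegral.integral_const, sub_zero, smul_eq_mul, one_mul]
        change (en G c A w / l + l) / 2 ≤ l
        linarith

theorem Seg.eventually_mem (h : Seg G W e L) (p : Par G e L J P) (hα : ContDiff ℝ ∞ α) :
    ∀ᶠ y in 𝓝 (L • e), ∀ u ∈ Icc (0 : ℝ) 1, sc e L u + sA G e L P α u (y - L • e) ∈ W := by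
  have v := h.var p hα
  have h1 := eventually_tube (v.isOpen_dom h.met.isOpen) (v.axis h.sc_mem)
  have h2 : Filter.Tendsto (fun y => y - L • e) (𝓝 (L • e)) (𝓝 0) :=
    tendsto_sub_nhds_zero_iff.2 Filter.tendsto_id
  filter_upwards [h2.eventually h1] with y hy u hu using (hy u hu).2

theorem Seg.ed_le (h : Seg G W e L) (p : Par G e L J P) (hα : ContDiff ℝ ∞ α) (h0 : α 0 = 0)
    (h1 : α L = 1) : ∀ᶠ y in 𝓝 (L • e), ∀ G' : E → Bil E, IsMetricOn G' W →
      ed G' W 0 y ≤ ENNReal.ofReal (sF G' G e L P α y) := by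
  filter_upwards [h.eventually_mem p hα] with y hy G' hG'
  have h2 := (h.var p hα).ed_le hG' hy
  rw [sA_zero h0, p.sA_one h1] at h2
  simpa [sc, sF] using h2

end Vale.Agent.P216L
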