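import Vale.Agent.P216L.Seg
import Vale.Agent.P216L.ParW
import Vale.Agent.P216BF.ONB

/-!
# P216L: Laplacian and Hessian bound of the support function; dependence on time
-/

open scoped Manifold ContDiff Topology
open Set MeasureTheory Module

set_option maxSynthPendingDepth 3
set_option linter.unusedSectionVars false

noncomputable section

namespace Vale.Agent.P216L

open Vale.Agent.P219.RG Vale.Agent.P216R Vale.Agent.P216BF
open Vale.Agent.P210.R2.H53 (hessG lapG gradG)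

variable {E : Type} [NormedAddCommGroup E] [NormedSpace ℝ E] [FiniteDimensional ℝ E]

section Time

variable {Q : Type} [NormedAddCommGroup Q] [NormedSpace ℝ Q] [FiniteDimensional ℝ Q]
  {J : Set ℝ} {c : ℝ → E} {A : ℝ → Q →L[ℝ] E} {Gt : ℝ → E → Bil E} {I : Set ℝ} {W : Set E} {t : ℝ}

theorem Var.contDiffOn_dens_time (v : Var J c A)
    (hG : ContDiffOn ℝ ∞ (fun q : ℝ × E => Gt q.1 q.2) (I ×ˢ W)) {O : Set Q}
    (hO : ∀ u ∈ Icc (0 : ℝ) 1, ∀ w ∈ O, c u + A u w ∈ W) :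
    ContDiffOn ℝ ∞ (fun q : ℝ × (ℝ × Q) => dens (Gt q.2.1) c A (q.1, q.2.2))
      (Icc 0 1 ×ˢ (I ×ˢ O)) := by
  intro q hq
  have hJ := v.sub hq.1
  have h0 : ContDiffAt ℝ ∞ (fun q : ℝ × (ℝ × Q) => ((q.1, q.2.2) : ℝ × Q)) q := by fun_prop
  have hF : ContDiffAt ℝ ∞
      (fun q : ℝ × (ℝ × Q) => ((q.2.1, c q.1 + A q.1 q.2.2) : ℝ × E)) q :=
    contDiffAt_snd.fst.prodMk (ContDiffAt.comp (g := fun q : ℝ × Q => c q.1 + A q.1 q.2) q
      (v.at_F (q := (q.1, q.2.2)) hJ) h0)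
  have hF' : ContDiffAt ℝ ∞ (fun q : ℝ × (ℝ × Q) => deriv c q.1 + deriv A q.1 q.2.2) q :=
    ContDiffAt.comp (g := fun q : ℝ × Q => deriv c q.1 + deriv A q.1 q.2) q
      (v.at_F' (q := (q.1, q.2.2)) hJ) h0
  have h1 := (hG _ (mk_mem_prod hq.2.1 (hO _ hq.1 _ hq.2.2))).comp q hF.contDiffWithinAt
    (s := Icc 0 1 ×ˢ (I ×ˢ O)) fun p hp => mk_mem_prod hp.2.1 (hO _ hp.1 _ hp.2.2)
  exact (h1.clm_apply hF'.contDiffWithinAt).clm_apply hF'.contDiffWithinAt

/-- the energy is jointly smooth in the time and the parameter -/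
theorem Var.ps_en (v : Var J c A) (hI : Convex ℝ I) (hI' : UniqueDiffOn ℝ I) (hW : IsOpen W)
    (hG : ContDiffOn ℝ ∞ (fun q : ℝ × E => Gt q.1 q.2) (I ×ˢ W)) (ht : t ∈ I)
    (hc : ∀ u ∈ Icc (0 : ℝ) 1, c u ∈ W) : PS (fun s => en (Gt s) c A) I t 0 := by
  obtain ⟨δ, hδ, hb⟩ := Metric.eventually_nhds_iff_ball.1
    (eventually_tube (v.isOpen_dom hW) (v.axis hc))
  exact contDiffWithinAt_univ_of (contDiffOn_par (hI.prod (convex_ball 0 δ))
    (hI'.prod Metric.isOpen_ball.uniqueDiffOn)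
    (v.contDiffOn_dens_time hG fun u hu w hw => (hb w hw u hu).2)) Metric.isOpen_ball ht
    (Metric.mem_ball_self hδ)

theorem Var.hasDerivWithinAt_en (v : Var J c A) (hI : Convex ℝ I) (hI' : UniqueDiffOn ℝ I)
    (hG : ContDiffOn ℝ ∞ (fun q : ℝ × E => Gt q.1 q.2) (I ×ˢ W)) (ht : t ∈ I)
    (hc : ∀ u ∈ Icc (0 : ℝ) 1, c u ∈ W) {k : ℝ → ℝ} (hk : ∀ u ∈ Icc (0 : ℝ) 1,
      HasDerivWithinAt (fun s => Gt s (c u) (deriv c u) (deriv c u)) (k u) I t) :
    HasDerivWithinAt (fun s => en (Gt s) c A 0) (∫ u in (0 : ℝ)..1, k u) I t := by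
  have h1 := (v.contDiffOn_dens_time hG (O := {0}) (fun u hu w hw => by
    rw [mem_singleton_iff.1 hw]; simpa using hc u hu)).comp
    (f := fun q : ℝ × ℝ => ((q.1, (q.2, 0)) : ℝ × (ℝ × Q))) (s := Icc 0 1 ×ˢ I) (by fun_prop)
    fun q hq => mk_mem_prod hq.1 (mk_mem_prod hq.2 rfl)
  exact hasDerivWithinAt_par hI hI' h1 ht fun u hu => by simpa [dens] using hk u hu

end Time

variable {G : E → Bil E} {W : Set E} {e : E} {L : ℝ} {J : Set ℝ} {P : ℝ → E →L[ℝ] E} {α : ℝ → ℝ}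

theorem Seg.pd (h : Seg G W e L) {s : ℝ} (hs : s ∈ Icc 0 L) : PD (G (s • e)) :=
  ⟨h.met.symm _ (h.mem s hs), h.met.pos _ (h.mem s hs)⟩

theorem Seg.last (h : Seg G W e L) : L ∈ Icc 0 L := ⟨h.pos.le, le_rfl⟩

theorem Seg.integrable_hk' (h : Seg G W e L) (p : Par G e L J P) (hα : ContDiff ℝ ∞ α) (w : E) :
    IntervalIntegrable (hk G e L P α w) volume 0 L := by
  have hL := h.pos.ne'
  have h1 := (h.integrable_hk p hα w).comp_mul_left (c := L⁻¹)
  simpa [mul_inv_cancel_left₀ hL] using h1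

theorem Seg.sum_hk (h : Seg G W e L) (p : Par G e L J P) {b : Fin (finrank ℝ E) → E}
    (hb : ONB (G (L • e)) b) {s : ℝ} (hs : s ∈ Icc 0 L) : ∑ i, hk G e L P α (b i) s =
      ((finrank ℝ E : ℝ) - 1) * deriv α s ^ 2 - α s ^ 2 * ricG G (s • e) e e := by
  have hb' : ONB (G (s • e)) fun i => P s (b i) := ⟨hb.card, fun i j => by rw [p.iso s hs, hb.on]⟩
  have h1 : ricG G (s • e) e e = ∑ i, G (s • e) (curv G (s • e) (P s (b i)) e e) (P s (b i)) := by
    rw [ricG_apply, hb'.trL]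
    exact Finset.sum_congr rfl fun i _ => by
      rw [← curvB_apply h.met (h.mem s hs)]; rfl
  simp only [hk, Finset.sum_sub_distrib, ← Finset.mul_sum, h1, hb.self, hb.sq (h.pd h.last),
    h.unit _ h.last, Finset.sum_const, Finset.card_univ, Fintype.card_fin, nsmul_eq_mul]
  ring

theorem Seg.lap (h : Seg G W e L) (p : Par G e L J P) (hα : ContDiff ℝ ∞ α) (h0 : α 0 = 0)
    (h1 : α L = 1) : lapG G (sF G G e L P α) (L • e) = ∫ s in (0 : ℝ)..L,
      (((finrank ℝ E : ℝ) - 1) * deriv α s ^ 2 - α s ^ 2 * ricG G (s • e) e e) := by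
  obtain ⟨b, hb⟩ := (h.pd h.last).exists_onb
  rw [lapG_eq, hb.trB (h.pd h.last)]
  simp only [(h.support p hα h0 h1).2.2.2]
  rw [← intervalIntegral.integral_finsetSum fun i _ => h.integrable_hk' p hα (b i)]
  exact intervalIntegral.integral_congr fun s hs =>
    h.sum_hk p hb (by rwa [uIcc_of_le h.pos.le] at hs)

theorem Seg.hess_le (h : Seg G W e L) (p : Par G e L J P) (hα : ContDiff ℝ ∞ α) (h0 : α 0 = 0)
    (h1 : α L = 1) {κ : ℝ → ℝ} (hκ : ContinuousOn κ (Icc 0 L))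
    (hs : ∀ s ∈ Icc 0 L, SecGe G (s • e) (κ s)) (w : E) :
    hessG G (sF G G e L P α) (L • e) w w ≤ (G (L • e) w w - G (L • e) e w ^ 2) *
      ∫ s in (0 : ℝ)..L, (deriv α s ^ 2 - κ s * α s ^ 2) := by
  rw [(h.support p hα h0 h1).2.2.2, ← intervalIntegral.integral_const_mul]
  refine intervalIntegral.integral_mono_on h.pos.le (h.integrable_hk' p hα w) ?_ fun s hs' => ?_
  · refine ContinuousOn.intervalIntegrable ?_
    rw [uIcc_of_le h.pos.le]
    exact continuousOn_const.mul (((hα.continuous_deriv (by simp)).continuousOn.pow 2).sub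
      (hκ.mul (hα.continuous.continuousOn.pow 2)))
  · have h2 := hs s hs' (P s w) e
    rw [p.iso s hs', p.tan s hs', h.unit s hs', (h.pd h.last).symm w e] at h2
    have h3 : secN G (s • e) (P s w) e = G (s • e) (curv G (s • e) (P s w) e e) (P s w) := by
      simp [secN]
    rw [h3] at h2
    rw [hk]
    nlinarith [mul_le_mul_of_nonneg_left h2 (sq_nonneg (α s))]

theorem Seg.grad (h : Seg G W e L) (p : Par G e L J P) (hα : ContDiff ℝ ∞ α) (h0 : α 0 = 0)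
    (h1 : α L = 1) : gradG G (sF G G e L P α) (L • e) = e := by
  have h2 : fderiv ℝ (sF G G e L P α) (L • e) = G (L • e) e :=
    ContinuousLinearMap.ext (h.support p hα h0 h1).2.2.1
  rw [gradG, h2, (isInv (h.pd h.last).pos).inverse_apply_self]

variable {Gt : ℝ → E → Bil E} {I : Set ℝ} {t : ℝ}

theorem Seg.ps (h : Seg (Gt t) W e L) (p : Par (Gt t) e L J P) (hα : ContDiff ℝ ∞ α)
    (hI : Convex ℝ I) (hI' : UniqueDiffOn ℝ I)
    (hG : ContDiffOn ℝ ∞ (fun q : ℝ × E => Gt q.1 q.2) (I ×ˢ W)) (ht : t ∈ I) :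
    PS (fun s => sF (Gt s) (Gt t) e L P α) I t (L • e) := by
  have h1 := (h.var p hα).ps_en hI hI' h.met.isOpen hG ht h.sc_mem
  have h2 : ContDiffWithinAt ℝ ∞ (fun q : ℝ × E => en (Gt q.1) (sc e L) (sA (Gt t) e L P α) q.2)
      (I ×ˢ univ) ((fun q : ℝ × E => (q.1, q.2 - L • e)) (t, L • e)) := by
    simpa using h1
  refine (ContDiffWithinAt.comp (f := fun q : ℝ × E => (q.1, q.2 - L • e)) (s := I ×ˢ univ)
    (t, L • e) h2 (by fun_prop) fun q hq => mk_mem_prod hq.1 (mem_univ _)).sqrt ?_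
  simpa [h.en_zero] using h.pos.ne'

theorem Seg.hasDerivWithinAt (h : Seg (Gt t) W e L) (p : Par (Gt t) e L J P) (hα : ContDiff ℝ ∞ α)
    (hI : Convex ℝ I) (hI' : UniqueDiffOn ℝ I)
    (hG : ContDiffOn ℝ ∞ (fun q : ℝ × E => Gt q.1 q.2) (I ×ˢ W)) (ht : t ∈ I) {k : ℝ → ℝ}
    (hk : ∀ s ∈ Icc 0 L, HasDerivWithinAt (fun r => Gt r (s • e) e e) (k s) I t) :
    HasDerivWithinAt (fun r => sF (Gt r) (Gt t) e L P α (L • e))
      ((∫ s in (0 : ℝ)..L, k s) / 2) I t := by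
  have hL := h.pos
  have h1 := (h.var p hα).hasDerivWithinAt_en hI hI' hG ht h.sc_mem
    (k := fun u => L ^ 2 * k (L * u)) fun u hu => by
      have h3 := (hk _ (h.scale hu)).const_mul (L * L)
      simpa [deriv_sc, sc, sq, mul_assoc] using h3
  have h2 := h1.sqrt (by simpa [h.en_zero] using hL.ne')
  rw [h.en_zero, Real.sqrt_sq hL.le, intervalIntegral.integral_const_mul,
    intervalIntegral.integral_comp_mul_left _ hL.ne'] at h2
  simp only [sF, sub_self]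
  refine h2.congr_deriv ?_
  simp only [mul_zero, mul_one, smul_eq_mul]
  field_simp

end Vale.Agent.P216L
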